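import Claimed.Agent.R316.Base.SV.Index

/-!
# Row 316 base layer, `BP-G5`: second variation ⟹ smooth support functions of the distance (EXPORT FILE)

Statement file written by helper97.  `hdist` is NEVER differentiated: all statements produce smooth functions (lengths of
smooth families of trial curves along a minimizing geodesic) which touch the distance from above.

Normalisations (checked on `ℂⁿ` and on `ℂP¹`): `|a|² = aᴴ H a`; for `r = |z|` on `ℂⁿ`: `dd r = I/(2r) - z zᴴ/(4r³)`, `|∂r|² = 1/4`;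
`Rm(E,T,T,E) + Rm(JE,T,T,JE) = 2 bisec(E,T)`;  real Ricci `Ric(T,T) = 2 qf (ricF h) T`.

ROUTE (helper154, architect of `BP-G5`; replaces the immersion along the geodesic): `SV/Var.lean` (second variation of the ENERGY of explicit trial curves in one chart),
`SV/Chain.lean` (chain of holomorphic parametrisations along the geodesic: triangle inequality + additivity), `SV/Master.lean` (`s = √(l · energy)`, `sv_master_amb`),
`SV/Index.lean` (`sv4_main`, `sv5_smooth`).  This file: the export statements (verbatim as written by helper97) and their glue proofs.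
`levi s (a, \bar a) = (D²(s∘Φ)(a,a) + D²(s∘Φ)(Ia,Ia))/4`, the accelerations `Γ(a,a) + Γ(Ia,Ia) = 0` cancel.

GLUE LEAVES: `G5-API-1` (`sv1`, `sv1_sq`), `G5-API-2` (`sv2`, `sv3`), `G5-API-3` (`sv6`).
-/

set_option autoImplicit false
set_option linter.unusedSectionVars false
open scoped ContDiff ComplexOrder Topology

namespace Claimed.Agent.R316

variable {V : Type} [NormedAddCommGroup V] [NormedSpace ℝ V] [FiniteDimensional ℝ V]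
variable {ι : Type} [Fintype ι] [DecidableEq ι]
variable {𝓜 : CMfd V ι} {h : HFam V ι}

/-- **Master statement** (one moving end point).  `γ` minimizing from `o` to `x`, `l > 0`.  There is a smooth upper support
function `s` of `d(o,·)` at `x` with `ds = ⟨T, ·⟩` and, for every tangent vector `a` at `x` with parallel extension `E`,
`dd s (a, \bar a) ≤ |a|²/(2l) - |∂s(a)|²/l - (1/2) ∫₀ˡ (σ/l)² bisec(E, T) dσ`. -/
theorem sv_master (hk : IsKahler 𝓜 h) (hconn : IsConnected 𝓜.carrier) {γ : ℝ → V} {o x : V} {l : ℝ}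
    (hγ : IsMinGeod 𝓜 h γ o x l) (hl : 0 < l) :
    ∃ s : V → ℝ, UpperSupp 𝓜 (fun y => hdist 𝓜 h o y) s x ∧
      (∀ a ∈ 𝓜.tangent x, ambD 𝓜 s x a = ambB 𝓜 h x (deriv γ l) a) ∧
      ∀ (Φ : CE ι → V) (U : Set (CE ι)), 𝓜.IsHol Φ U → ∀ z ∈ U, Φ z = x → ∀ (a : CE ι) (E : ℝ → V) (ε : ℝ),
        0 < ε → IsParallelAlong 𝓜 h γ E (Set.Ioo (-ε) (l + ε)) → E l = fderiv ℝ Φ z a →
        qf (ddc s Φ z) a ≤ qf (h Φ z) a / (2 * l) - ‖∑ k, grad10 (s ∘ Φ) z k * a k‖ ^ 2 / l -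
          (1 / 2) * ∫ σ in (0 : ℝ)..l, (σ / l) ^ 2 * ambBisec 𝓜 h (γ σ) (E σ) (deriv γ σ) := by
  obtain ⟨s, hs, hd, hL⟩ := sv_master_amb hk hconn hγ hl
  refine ⟨s, hs, hd, ?_⟩
  intro Φ U hΦ z hz hzx a E ε hε hE hEl
  have h1 := hL E ε hε hE
  have hmem : ∀ b : CE ι, fderiv ℝ Φ z b ∈ 𝓜.tangent x := fun b => by
    rw [← hzx, CMfd.tangent_eq hΦ hz]; exact ⟨b, rfl⟩
  have hdiff : DifferentiableAt ℝ (s ∘ Φ) z := hs.smooth.differentiableAt_comp hΦ hz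
  have e1 : ambQ 𝓜 (ddc s) x (E l) = qf (ddc s Φ z) a := by
    rw [hEl, ← hzx]; exact ambQ_param (isHForm_ddc hs.smooth) hΦ hz a
  have e2 : ambQ 𝓜 h x (E l) = qf (h Φ z) a := by
    rw [hEl, ← hzx]; exact ambQ_param hk.toIsHForm hΦ hz a
  have e3 : ambB 𝓜 h x (deriv γ l) (E l) = fderiv ℝ (s ∘ Φ) z a := by
    rw [hEl, ← hd _ (hmem a), ← hzx]; exact ambD_param hΦ hz hdiff a
  have e4 : ambB 𝓜 h x (deriv γ l) (ambJ 𝓜 x (E l)) = fderiv ℝ (s ∘ Φ) z (Complex.I • a) := by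
    have : ambJ 𝓜 x (E l) = fderiv ℝ Φ z (Complex.I • a) := by
      rw [hEl, ← hzx]; exact ambJ_param hΦ hz a
    rw [this, ← hd _ (hmem _), ← hzx]; exact ambD_param hΦ hz hdiff _
  rw [e1, e2, e3, e4] at h1
  rw [sv_normSq_grad10 hdiff a]
  have : (fderiv ℝ (s ∘ Φ) z a ^ 2 + fderiv ℝ (s ∘ Φ) z (Complex.I • a) ^ 2) / 4 / l
      = (fderiv ℝ (s ∘ Φ) z a ^ 2 + fderiv ℝ (s ∘ Φ) z (Complex.I • a) ^ 2) / (4 * l) := by
    rw [div_div]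
  rw [this]
  exact h1

/-- an inequality of forms at one point from the quadratic forms. -/
theorem sv_leFOn_of_qf (hm : IsHForm 𝓜 h) {s : V → ℝ} (hs : 𝓜.Smooth s) {x : V} {C : ℝ}
    (H : ∀ (Φ : CE ι → V) (U : Set (CE ι)), 𝓜.IsHol Φ U → ∀ z ∈ U, Φ z = x → ∀ a : CE ι,
      qf (ddc s Φ z) a ≤ C * qf (h Φ z) a) :
    leFOn 𝓜 {x} (ddc s) (smulF (fun _ => C) h) := by
  intro Φ U hΦ z hz hzx
  have hA : (smulF (fun _ => C) h Φ z - ddc s Φ z).IsHermitian :=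
    (isHermitian_smul_real C (hm.herm hΦ z hz)).sub ((isHForm_ddc hs).herm hΦ z hz)
  rw [lv_posSemidef_iff_qf hA]
  intro v
  rw [lv_qf_sub]
  unfold smulF
  rw [lv_qf_smul]
  have := H Φ U hΦ z hz hzx (WithLp.toLp 2 v)
  exact sub_nonneg.2 this

/-- `sv_master` together with the parallel extension of the given vector. -/
theorem sv_master_ext (hk : IsKahler 𝓜 h) (hconn : IsConnected 𝓜.carrier) {γ : ℝ → V} {o x : V}
    {l : ℝ} (hγ : IsMinGeod 𝓜 h γ o x l) (hl : 0 < l) :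
    ∃ s : V → ℝ, UpperSupp 𝓜 (fun y => hdist 𝓜 h o y) s x ∧
      (∀ a ∈ 𝓜.tangent x, ambD 𝓜 s x a = ambB 𝓜 h x (deriv γ l) a) ∧
      ∃ ε > 0, IsGeodesic 𝓜 h γ (Set.Ioo (-ε) (l + ε)) ∧
        (∀ σ ∈ Set.Ioo (-ε) (l + ε), ambQ 𝓜 h (γ σ) (deriv γ σ) = 1) ∧
        ∀ (Φ : CE ι → V) (U : Set (CE ι)), 𝓜.IsHol Φ U → ∀ z ∈ U, Φ z = x → ∀ a : CE ι,
          ∃ E : ℝ → V, IsParallelAlong 𝓜 h γ E (Set.Ioo (-ε) (l + ε)) ∧ E l = fderiv ℝ Φ z a ∧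
            qf (ddc s Φ z) a ≤ qf (h Φ z) a / (2 * l) -
              ‖∑ k, grad10 (s ∘ Φ) z k * a k‖ ^ 2 / l -
              (1 / 2) * ∫ σ in (0 : ℝ)..l, (σ / l) ^ 2 * ambBisec 𝓜 h (γ σ) (E σ) (deriv γ σ) := by
  obtain ⟨s, hs, hd, hL⟩ := sv_master hk hconn hγ hl
  obtain ⟨ε, hε, hg, hu⟩ := sv_exists_unit hk hγ hl
  refine ⟨s, hs, hd, ε, hε, hg, hu, fun Φ U hΦ z hz hzx a => ?_⟩
  have hγl : γ l = x := hγ.2.2.1
  obtain ⟨E, hE, hEl⟩ := exists_parallelAlong hk hg (t₀ := l) ⟨by linarith, by linarith⟩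
    (e := fderiv ℝ Φ z a) (by rw [hγl, ← hzx, CMfd.tangent_eq hΦ hz]; exact ⟨a, rfl⟩)
  exact ⟨E, hE, hEl, hL Φ U hΦ z hz hzx a E ε hε hE hEl⟩

/- PLAN of `sv1`.  `l := hdist o x > 0` (`hdist_pos`), `γ` from `exists_minGeod`, `s` from `sv_master`.  `gradSq = 1/4`: `sv_gradSq_of_ambD` with `T = γ' l` (`IsMinGeod.deriv_mem_tangent`, `ambQ_eq_one`).
`leFOn`: `lv_posSemidef_iff_qf` (Hermitian: `IsHForm.herm`, `isHForm_ddc`; `smulF` unfolds to a real multiple), `lv_qf_sub`, `lv_qf_smul`; for `a` take `E` from `exists_parallelAlong` (interval of `sv_exists_unit`)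
with `E l = dΦ a` (`CMfd.tangent_eq`); drop `‖…‖²/l ≥ 0` and the integral `≥ 0` (`intervalIntegral.integral_nonneg`, `sv_ambBisec_nonneg`, `IsMinGeod.mem_carrier`). -/
/-- **(SV1)** complex Hessian comparison, `BK ≥ 0`: `dd r ≤ h/(2r)`, `|∂r|² = 1/4`, in the support sense. -/
theorem sv1 (hk : IsKahler 𝓜 h) (hconn : IsConnected 𝓜.carrier) (hb : BisecNonneg 𝓜 h) {o x : V}
    (ho : o ∈ 𝓜.carrier) (hx : x ∈ 𝓜.carrier) (hne : o ≠ x)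
    (hc : IsCompact (hcball 𝓜 h o (hdist 𝓜 h o x))) :
    ∃ s : V → ℝ, UpperSupp 𝓜 (fun y => hdist 𝓜 h o y) s x ∧ gradSq 𝓜 h s x = 1 / 4 ∧
      leFOn 𝓜 {x} (ddc s) (smulF (fun _ => 1 / (2 * hdist 𝓜 h o x)) h) := by
  have hl : 0 < hdist 𝓜 h o x := hdist_pos hk.toIsMetric hconn ho hx hne
  obtain ⟨γ, hγ⟩ := exists_minGeod hk hconn ho hx hc
  obtain ⟨s, hs, hd, ε, hε, hg, hu, hL⟩ := sv_master_ext hk hconn hγ hl
  have hγl : γ (hdist 𝓜 h o x) = x := hγ.2.2.1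
  have hlI : hdist 𝓜 h o x ∈ Set.Icc 0 (hdist 𝓜 h o x) := ⟨hl.le, le_rfl⟩
  refine ⟨s, hs, ?_, sv_leFOn_of_qf hk.toIsHForm hs.smooth fun Φ U hΦ z hz hzx a => ?_⟩
  · have htan := hγ.deriv_mem_tangent hlI
    rw [hγl] at htan
    rw [sv_gradSq_of_ambD hk.toIsMetric hs.smooth hx htan hd]
    have := hγ.ambQ_eq_one hk hl hlI
    rw [hγl] at this
    rw [this]
  · obtain ⟨E, hE, hEl, hle⟩ := hL Φ U hΦ z hz hzx a
    have h1 : 0 ≤ ∫ σ in (0 : ℝ)..hdist 𝓜 h o x,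
        (σ / hdist 𝓜 h o x) ^ 2 * ambBisec 𝓜 h (γ σ) (E σ) (deriv γ σ) :=
      intervalIntegral.integral_nonneg hl.le fun σ hσ =>
        mul_nonneg (sq_nonneg _) (sv_ambBisec_nonneg hb (hγ.mem_carrier hσ) _ _)
    have h2 : 0 ≤ ‖∑ k, grad10 (s ∘ Φ) z k * a k‖ ^ 2 / hdist 𝓜 h o x := by positivity
    calc qf (ddc s Φ z) a ≤ qf (h Φ z) a / (2 * hdist 𝓜 h o x) := by linarith
      _ = _ := by ring

/-- the Levi form of a square as a quadratic form. -/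
theorem sv_qf_levi_sq {f : CE ι → ℝ} {z : CE ι} (hf : ContDiffAt ℝ 2 f z) (a : ι → ℂ) :
    qf (levi (fun w => f w ^ 2) z) a =
      2 * f z * qf (levi f z) a + 2 * ‖∑ k, grad10 f z k * a k‖ ^ 2 := by
  have h1 : levi (fun w => f w ^ 2) z = ((2 * f z : ℝ) : ℂ) • levi f z +
      ((2 : ℝ) : ℂ) • Matrix.of fun j k => (starRingEnd ℂ) (grad10 f z j) * grad10 f z k := by
    ext j k
    rw [levi_sq hf]
    simp
  rw [h1, qf_add, lv_qf_smul, lv_qf_smul, qf_grad10_outer]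

theorem sv1_sq_ne (hk : IsKahler 𝓜 h) (hconn : IsConnected 𝓜.carrier) (hb : BisecNonneg 𝓜 h) {o x : V}
    (ho : o ∈ 𝓜.carrier) (hx : x ∈ 𝓜.carrier) (hne : o ≠ x)
    (hc : IsCompact (hcball 𝓜 h o (hdist 𝓜 h o x))) {ε : ℝ} (hε : 0 < ε) :
    ∃ s : V → ℝ, UpperSupp 𝓜 (fun y => hdist 𝓜 h o y ^ 2) s x ∧
      leFOn 𝓜 {x} (ddc s) (smulF (fun _ => 1 + ε) h) := by
  have hl : 0 < hdist 𝓜 h o x := hdist_pos hk.toIsMetric hconn ho hx hne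
  obtain ⟨γ, hγ⟩ := exists_minGeod hk hconn ho hx hc
  obtain ⟨s, hs, hd, ε', hε', hg, hu, hL⟩ := sv_master_ext hk hconn hγ hl
  have hs2 : 𝓜.Smooth (fun y => s y ^ 2) := hs.smooth.pow 2
  refine ⟨fun y => s y ^ 2, ⟨hs2, ?_, ?_⟩, sv_leFOn_of_qf hk.toIsHForm hs2 fun Φ U hΦ z hz hzx a => ?_⟩
  · filter_upwards [hs.le] with y hy
    exact pow_le_pow_left₀ (hdist_nonneg _ _ _ _) hy 2
  · simp only [hs.eq]
  · obtain ⟨E, hE, hEl, hle⟩ := hL Φ U hΦ z hz hzx a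
    have h1 : 0 ≤ ∫ σ in (0 : ℝ)..hdist 𝓜 h o x,
        (σ / hdist 𝓜 h o x) ^ 2 * ambBisec 𝓜 h (γ σ) (E σ) (deriv γ σ) :=
      intervalIntegral.integral_nonneg hl.le fun σ hσ =>
        mul_nonneg (sq_nonneg _) (sv_ambBisec_nonneg hb (hγ.mem_carrier hσ) _ _)
    have h2 : ddc (fun y => s y ^ 2) Φ z = levi (fun w => (s ∘ Φ) w ^ 2) z := rfl
    have h3 : (s ∘ Φ) z = hdist 𝓜 h o x := by
      show s (Φ z) = _
      rw [hzx, hs.eq]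
    have h4 : 0 ≤ qf (h Φ z) a := qf_nonneg (hk.posDef hΦ z hz).posSemidef _
    have h5 : qf (ddc s Φ z) a = qf (levi (s ∘ Φ) z) a := rfl
    rw [h2, sv_qf_levi_sq (hs.smooth.contDiffAt_comp_two hΦ hz), h3, ← h5]
    have h6 : 2 * hdist 𝓜 h o x * qf (ddc s Φ z) a ≤ 2 * hdist 𝓜 h o x *
        (qf (h Φ z) a / (2 * hdist 𝓜 h o x) -
          ‖∑ k, grad10 (s ∘ Φ) z k * a k‖ ^ 2 / hdist 𝓜 h o x -
          (1 / 2) * ∫ σ in (0 : ℝ)..hdist 𝓜 h o x,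
            (σ / hdist 𝓜 h o x) ^ 2 * ambBisec 𝓜 h (γ σ) (E σ) (deriv γ σ)) :=
      mul_le_mul_of_nonneg_left hle (by positivity)
    have h7 : 2 * hdist 𝓜 h o x *
        (qf (h Φ z) a / (2 * hdist 𝓜 h o x) -
          ‖∑ k, grad10 (s ∘ Φ) z k * a k‖ ^ 2 / hdist 𝓜 h o x -
          (1 / 2) * ∫ σ in (0 : ℝ)..hdist 𝓜 h o x,
            (σ / hdist 𝓜 h o x) ^ 2 * ambBisec 𝓜 h (γ σ) (E σ) (deriv γ σ)) =
        qf (h Φ z) a - 2 * ‖∑ k, grad10 (s ∘ Φ) z k * a k‖ ^ 2 - hdist 𝓜 h o x *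
          ∫ σ in (0 : ℝ)..hdist 𝓜 h o x,
            (σ / hdist 𝓜 h o x) ^ 2 * ambBisec 𝓜 h (γ σ) (E σ) (deriv γ σ) := by
      field_simp
    have h8 := mul_nonneg hl.le h1
    have h9 := mul_nonneg hε.le h4
    linarith

theorem sv1_sq_self (hk : IsKahler 𝓜 h) {o : V} (ho : o ∈ 𝓜.carrier) {ε : ℝ} (hε : 0 < ε) :
    ∃ s : V → ℝ, UpperSupp 𝓜 (fun y => hdist 𝓜 h o y ^ 2) s o ∧
      leFOn 𝓜 {o} (ddc s) (smulF (fun _ => 1 + ε) h) := by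
  have hΦ := 𝓜.isHol_pΦ ho
  have hz := 𝓜.co_mem ho
  have hoe := 𝓜.pΦ_co ho
  have hH := hk.herm hΦ _ hz
  have hpos := (hk.posDef hΦ _ hz).posSemidef
  obtain ⟨η, hη, hη1, hη3⟩ : ∃ η : ℝ, 0 < η ∧ η ≤ 1 ∧ 3 * η ≤ ε :=
    ⟨min 1 (ε / 3), lt_min one_pos (by positivity), min_le_left _ _, by
      have := min_le_right 1 (ε / 3)
      linarith⟩
  have hC : (1 + η) ^ 2 ≤ 1 + ε := by nlinarith
  obtain ⟨δ, hδ, hball, hcmp⟩ := hdist_local_compare hk.toIsMetric hΦ hz hη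
  have hf : ContDiff ℝ ∞ (fun z : CE ι => (1 + η) ^ 2 *
      qf (h (𝓜.pΦ o) (𝓜.co o)) (fun j => (z + -𝓜.co o) j)) :=
    contDiff_const.mul ((contDiff_qf (h (𝓜.pΦ o) (𝓜.co o))).comp
      (contDiff_id.add contDiff_const))
  obtain ⟨s, hs, hsf⟩ := sv_exists_global hΦ hz isOpen_univ (Set.mem_univ _) hf.contDiffOn
  have hsf' : (s ∘ 𝓜.pΦ o) =ᶠ[𝓝 (𝓜.co o)] fun z : CE ι => (1 + η) ^ 2 *
      qf (h (𝓜.pΦ o) (𝓜.co o)) (fun j => (z + -𝓜.co o) j) := hsf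
  have hsupp : UpperSupp 𝓜 (fun y => hdist 𝓜 h o y ^ 2) s (𝓜.pΦ o (𝓜.co o)) := by
    refine sv_upperSupp_of_chart hΦ hz hs ?_ ?_
    · filter_upwards [hsf, Metric.ball_mem_nhds _ hδ] with z h1 h2
      rw [h1]
      have h3 := (hcmp z h2 _ (Metric.mem_ball_self hδ)).2
      rw [hoe, hdist_comm hk.toIsMetric] at h3
      have h4 := pow_le_pow_left₀ (hdist_nonneg _ _ _ _) h3 2
      rw [mul_pow, Real.sq_sqrt (qf_nonneg hpos _)] at h4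
      have e : (fun j => (z + -𝓜.co o) j) = z.ofLp - (𝓜.co o).ofLp := by
        funext j
        simp [sub_eq_add_neg]
      rw [e]
      exact h4
    · have e0 : (fun j => (𝓜.co o + -𝓜.co o) j) = (0 : ι → ℂ) := by
        funext j
        simp
      rw [hsf.self_of_nhds, hoe, hdist_self ho, e0, qf_zero_vec]
      simp
  rw [hoe] at hsupp
  have hlevi : ddc s (𝓜.pΦ o) (𝓜.co o) = (((1 + η) ^ 2 : ℝ) : ℂ) • h (𝓜.pΦ o) (𝓜.co o) := by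
    unfold ddc
    have hq2 : ContDiffAt ℝ 2 (fun z : CE ι =>
        qf (h (𝓜.pΦ o) (𝓜.co o)) (fun j => (z + -𝓜.co o) j)) (𝓜.co o) :=
      (((contDiff_qf (h (𝓜.pΦ o) (𝓜.co o))).comp
        (contDiff_id.add contDiff_const)).contDiffAt).of_le ENat.LEInfty.out
    rw [levi_congr hsf', levi_const_mul _ hq2]
    have := levi_comp_add_const (z := 𝓜.co o)
      (fun w : CE ι => qf (h (𝓜.pΦ o) (𝓜.co o)) (fun j => w j)) (-𝓜.co o)
    rw [this, levi_qf _ hH]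
  refine ⟨s, hsupp, sv_leFOn_of_qf hk.toIsHForm hs fun Φ U hΦ' z hz' hzx a => ?_⟩
  have e1 := ambQ_param (isHForm_ddc hs) hΦ' hz' a
  have e2 := ambQ_param hk.toIsHForm hΦ' hz' a
  rw [hzx] at e1 e2
  rw [← e1, ← e2]
  unfold ambQ
  rw [hlevi, lv_qf_smul]
  exact mul_le_mul_of_nonneg_right hC (qf_nonneg hpos _)

/- PLAN of `sv1_sq`.  CASE `x ≠ o`: `s₁` from `sv_master`, `s := s₁²` (`Smooth.pow`); `levi_sq`: `qf (levi (f²)) a = 2 f qf (levi f) a + 2 |∂f(a)|²` (`qf_grad10_outer`), `f z = l`; so `qf ≤ 2l (|a|²/(2l) - |∂f a|²/l) + 2 |∂f a|² = |a|² ≤ (1+ε)|a|²`.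
CASE `x = o`: `Φ = 𝓜.pΦ o`, `ε' = min 1 (ε/3)`, `hdist_local_compare`: `hdist o (Φ z)² ≤ (1+ε')² qf (h Φ z₀) (z - z₀)`; `s` from `sv_exists_global` with `f z = (1+ε')² qf (h Φ z₀) (z - z₀)`; `levi_qf`, `levi_comp_add_const`;
in another parametrisation use `ambQ_param` for `ddc s` and `h` (as in the proof of `sv_master`); `(1+ε')² ≤ 1+ε`. -/
/-- **(SV1')** the squared distance: `dd r² ≤ h` in the support sense, at EVERY point (also at the centre). -/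
theorem sv1_sq (hk : IsKahler 𝓜 h) (hconn : IsConnected 𝓜.carrier) (hb : BisecNonneg 𝓜 h) {o x : V}
    (ho : o ∈ 𝓜.carrier) (hx : x ∈ 𝓜.carrier) (hc : IsCompact (hcball 𝓜 h o (hdist 𝓜 h o x))) {ε : ℝ}
    (hε : 0 < ε) :
    ∃ s : V → ℝ, UpperSupp 𝓜 (fun y => hdist 𝓜 h o y ^ 2) s x ∧
      leFOn 𝓜 {x} (ddc s) (smulF (fun _ => 1 + ε) h) := by
  by_cases hne : o = x
  · subst hne
    exact sv1_sq_self hk ho hε
  · exact sv1_sq_ne hk hconn hb ho hx hne hc hε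


/-- the elementary integral of `sv2`. -/
theorem sv_integral_sq_tail {l : ℝ} (hl : 1 ≤ l) : 1 / 3 ≤ ∫ σ in (l - 1)..l, (σ / l) ^ 2 := by
  have hl0 : 0 < l := by linarith
  have h1 : ∫ σ in (l - 1)..l, (σ / l) ^ 2 = (l ^ 3 - (l - 1) ^ 3) / 3 / l ^ 2 := by
    simp only [div_pow]
    rw [intervalIntegral.integral_div, integral_pow]
    norm_num
  rw [h1, le_div_iff₀ (by positivity)]
  nlinarith [mul_nonneg (by linarith : (0 : ℝ) ≤ 2 * l - 1) (by linarith : (0 : ℝ) ≤ l - 1)]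

/- PLAN of `sv2`.  `K = ∅`: `c = 1`.  Otherwise `o ∈ K`, `K ⊆ hball o R` (`exists_hcball_of_isCompact`), `K₂ := hcball o (R+1)` compact (`hp`), `c₁` from `exists_ambBisec_lower` on `K₂`, `c := c₁/6`.
For `x ∈ K`, `l = hdist y x ≥ 1`: `γ` from `exists_minGeod_of_proper` (from `y` to `x`), `s` from `sv_master`.  For `σ ∈ [l-1,l]`: `hdist x (γ σ) = l - σ ≤ 1`, so `γ σ ∈ K₂` (`hdist_triangle`), and
`bisec(E,γ') ≥ c₁ |E|² |γ'|² = c₁ |a|²` (`IsParallelAlong.ambB_const`, `ambQ_eq_one`); on `[0,l-1]`: `≥ 0` (`BisecPos.nonneg`).  Integrability: `sv_continuousOn_ambBisec_along`.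
`∫_{l-1}^l (σ/l)² dσ = 1 - 1/l + 1/(3l²) ≥ 1/3` for `l ≥ 1`.  Hence `qf (ddc s) a ≤ (1/(2l) - c₁/6) |a|²`. -/
/-- **(SV2)** (Busemann input, preliminaries.tex l.60-100) `BK > 0`, `K` compact: the distance from a far point `y` has at
`x ∈ K` an upper support function with `dd s ≤ (1/(2 d(x,y)) - c_K) h`. -/
theorem sv2 (hk : IsKahler 𝓜 h) (hconn : IsConnected 𝓜.carrier) (hp : IsProperMetric 𝓜 h)
    (hb : BisecPos 𝓜 h) {K : Set V} (hK : IsCompact K) (hKM : K ⊆ 𝓜.carrier) :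
    ∃ c : ℝ, 0 < c ∧ ∀ x ∈ K, ∀ y ∈ 𝓜.carrier, 1 ≤ hdist 𝓜 h y x →
      ∃ s : V → ℝ, UpperSupp 𝓜 (fun p => hdist 𝓜 h y p) s x ∧
        leFOn 𝓜 {x} (ddc s) (smulF (fun _ => 1 / (2 * hdist 𝓜 h y x) - c) h) := by
  rcases K.eq_empty_or_nonempty with rfl | ⟨o, hoK⟩
  · exact ⟨1, one_pos, fun x hx => absurd hx (Set.notMem_empty x)⟩
  have hm := hk.toIsMetric
  have ho := hKM hoK
  obtain ⟨R, hR, hKR⟩ := exists_hcball_of_isCompact hm hconn ho hK hKM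
  obtain ⟨c₁, hc₁, hlow⟩ := exists_ambBisec_lower hk hb (hp o ho (R + 1)) (fun p hp' => hp'.1)
  refine ⟨c₁ / 6, by positivity, fun x hxK y hy hl1 => ?_⟩
  have hx := hKM hxK
  obtain ⟨γ, hγ⟩ := exists_minGeod_of_proper hk hconn hp hy hx
  obtain ⟨l, hl⟩ : ∃ l, l = hdist 𝓜 h y x := ⟨_, rfl⟩
  rw [← hl] at hγ hl1 ⊢
  have hl0 : 0 < l := by linarith
  obtain ⟨s, hs, hd, ε, hε, hg, hu, hL⟩ := sv_master_ext hk hconn hγ hl0
  have hγl : γ l = x := hγ.2.2.1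
  have hsub : Set.Icc 0 l ⊆ Set.Ioo (-ε) (l + ε) := fun σ hσ =>
    ⟨by linarith [hσ.1], by linarith [hσ.2]⟩
  have hlI : l ∈ Set.Icc 0 l := ⟨hl0.le, le_rfl⟩
  refine ⟨s, hs, sv_leFOn_of_qf hk.toIsHForm hs.smooth fun Φ U hΦ z hz hzx a => ?_⟩
  obtain ⟨E, hE, hEl, hle⟩ := hL Φ U hΦ z hz hzx a
  have hQ : ∀ σ ∈ Set.Icc 0 l, ambQ 𝓜 h (γ σ) (E σ) = qf (h Φ z) a := by
    intro σ hσ
    rw [← ambQ_param hk.toIsHForm hΦ hz a, ← hEl, hzx, ← hγl, ← ambB_self, ← ambB_self]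
    exact hE.ambB_const hk hg hE (hsub hσ) (hsub hlI)
  have hQ0 : 0 ≤ qf (h Φ z) a := qf_nonneg (hk.posDef hΦ z hz).posSemidef _
  have hcont : ContinuousOn
      (fun σ => (σ / l) ^ 2 * ambBisec 𝓜 h (γ σ) (E σ) (deriv γ σ)) (Set.Icc 0 l) :=
    (by fun_prop : Continuous fun σ : ℝ => (σ / l) ^ 2).continuousOn.mul
      ((sv_continuousOn_ambBisec_along hk hg hE).mono hsub)
  have hi1 : IntervalIntegrable (fun σ => (σ / l) ^ 2 * ambBisec 𝓜 h (γ σ) (E σ) (deriv γ σ))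
      MeasureTheory.volume 0 (l - 1) := by
    apply ContinuousOn.intervalIntegrable
    rw [Set.uIcc_of_le (by linarith)]
    exact hcont.mono (Set.Icc_subset_Icc le_rfl (by linarith))
  have hi2 : IntervalIntegrable (fun σ => (σ / l) ^ 2 * ambBisec 𝓜 h (γ σ) (E σ) (deriv γ σ))
      MeasureTheory.volume (l - 1) l := by
    apply ContinuousOn.intervalIntegrable
    rw [Set.uIcc_of_le (by linarith)]
    exact hcont.mono (Set.Icc_subset_Icc (by linarith) le_rfl)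
  have hA : 0 ≤ ∫ σ in (0 : ℝ)..(l - 1), (σ / l) ^ 2 * ambBisec 𝓜 h (γ σ) (E σ) (deriv γ σ) :=
    intervalIntegral.integral_nonneg (by linarith) fun σ hσ =>
      mul_nonneg (sq_nonneg _)
        (sv_ambBisec_nonneg hb.nonneg (hγ.mem_carrier ⟨hσ.1, by linarith [hσ.2]⟩) _ _)
  have hB : (∫ σ in (l - 1)..l, (σ / l) ^ 2 * (c₁ * qf (h Φ z) a)) ≤
      ∫ σ in (l - 1)..l, (σ / l) ^ 2 * ambBisec 𝓜 h (γ σ) (E σ) (deriv γ σ) := by
    refine intervalIntegral.integral_mono_on (by linarith)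
      ((by fun_prop : Continuous fun σ : ℝ => (σ / l) ^ 2 * (c₁ * qf (h Φ z) a)).intervalIntegrable
        _ _) hi2 fun σ hσ => ?_
    have hσI : σ ∈ Set.Icc 0 l := ⟨by linarith [hσ.1], hσ.2⟩
    have hmem : γ σ ∈ hcball 𝓜 h o (R + 1) := by
      refine ⟨hγ.mem_carrier hσI, ?_⟩
      have t1 := hdist_triangle (h := h) hm hconn ho hx (hγ.mem_carrier hσI)
      have t2 := hγ.2.2.2.2 l hlI σ hσI
      rw [hγl, abs_of_nonneg (by linarith [hσ.2])] at t2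
      have t3 := (hKR hxK).2
      linarith [hσ.1]
    have h1 := hlow (γ σ) hmem (E σ) (hE.2.1 σ (hsub hσI)) (deriv γ σ) (hγ.deriv_mem_tangent hσI)
    rw [hQ σ hσI, hγ.ambQ_eq_one hk hl0 hσI, mul_one] at h1
    exact mul_le_mul_of_nonneg_left h1 (sq_nonneg _)
  rw [intervalIntegral.integral_mul_const] at hB
  have hC := mul_le_mul_of_nonneg_right (sv_integral_sq_tail hl1) (mul_nonneg hc₁.le hQ0)
  have hsum := intervalIntegral.integral_add_adjacent_intervals hi1 hi2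
  have h2 : 0 ≤ ‖∑ k, grad10 (s ∘ Φ) z k * a k‖ ^ 2 / l := by positivity
  have h3 : (1 / (2 * l) - c₁ / 6) * qf (h Φ z) a =
      qf (h Φ z) a / (2 * l) - (1 / 2) * (1 / 3 * (c₁ * qf (h Φ z) a)) := by ring
  rw [h3]
  linarith


/-- the Levi form of a logarithm as a quadratic form. -/
theorem sv_qf_levi_log {f : CE ι → ℝ} {z : CE ι} (hf : ContDiffAt ℝ 2 f z) (h0 : f z ≠ 0)
    (a : ι → ℂ) :
    qf (levi (fun w => Real.log (f w)) z) a =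
      qf (levi f z) a / f z - ‖∑ k, grad10 f z k * a k‖ ^ 2 / f z ^ 2 := by
  have h1 : levi (fun w => Real.log (f w)) z = (((f z)⁻¹ : ℝ) : ℂ) • levi f z -
      ((((f z) ^ 2)⁻¹ : ℝ) : ℂ) •
        Matrix.of fun j k => (starRingEnd ℂ) (grad10 f z j) * grad10 f z k := by
    ext j k
    rw [levi_log hf h0]
    simp [div_eq_mul_inv, mul_comm]
  rw [h1, qf_sub, lv_qf_smul, lv_qf_smul, qf_grad10_outer]
  ring

/- PLAN of `sv3`.  `s`, `γ`, `l` as in `sv1`.  `a := coVec Φ z (γ' l)`, `dΦ a = γ' l`; `E := deriv γ` (`IsGeodesic.isParallelAlong_deriv`).  `levi_log` (`s x = l > 0`): `qf (levi (log f)) a = qf (levi f) a / l - |∂f(a)|²/l²`.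
`|∂f(a)|² ≥ (df(a))²/4 = 1/4` (`sv_normSq_grad10`, `df(a) = ⟨T,T⟩ = 1`), `|a|² = 1`.  So `qf ≤ 1/(2l²) - 2 |∂f a|²/l² - (1/(2l)) ∫ (σ/l)² bisec(T,T) ≤ - (1/(2l)) ∫ … < 0`;
the integral is positive: `intervalIntegral.intervalIntegral_pos_of_pos_on` (integrable by `sv_continuousOn_ambBisec_along`; positive on `Ioo 0 l` by `sv_ambBisec_pos`, `γ' σ ≠ 0` since `ambQ = 1`). -/
/-- **(SV3)** (psh Liouville, charts.tex l.840-870) `BK > 0`: `log r` has a strictly negative Levi derivative on the radial complex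
line, in the support sense. -/
theorem sv3 (hk : IsKahler 𝓜 h) (hconn : IsConnected 𝓜.carrier) (hb : BisecPos 𝓜 h) {o x : V}
    (ho : o ∈ 𝓜.carrier) (hx : x ∈ 𝓜.carrier) (hne : o ≠ x)
    (hc : IsCompact (hcball 𝓜 h o (hdist 𝓜 h o x))) :
    ∃ s : V → ℝ, UpperSupp 𝓜 (fun y => hdist 𝓜 h o y) s x ∧
      ∀ (Φ : CE ι → V) (U : Set (CE ι)), 𝓜.IsHol Φ U → ∀ z ∈ U, Φ z = x →
        ∃ a : CE ι, qf (ddc (fun y => Real.log (s y)) Φ z) a < 0 := by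
  have hl0 : 0 < hdist 𝓜 h o x := hdist_pos hk.toIsMetric hconn ho hx hne
  obtain ⟨γ, hγ⟩ := exists_minGeod hk hconn ho hx hc
  obtain ⟨l, hl⟩ : ∃ l, l = hdist 𝓜 h o x := ⟨_, rfl⟩
  rw [← hl] at hγ hl0
  obtain ⟨s, hs, hd, hL⟩ := sv_master hk hconn hγ hl0
  obtain ⟨ε, hε, hg, hu⟩ := sv_exists_unit hk hγ hl0
  have hγl : γ l = x := hγ.2.2.1
  have hlI : l ∈ Set.Icc 0 l := ⟨hl0.le, le_rfl⟩
  have htan : deriv γ l ∈ 𝓜.tangent x := hγl ▸ hγ.deriv_mem_tangent hlI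
  have hQ1 : ambQ 𝓜 h x (deriv γ l) = 1 := hγl ▸ hγ.ambQ_eq_one hk hl0 hlI
  have hpar := hg.isParallelAlong_deriv hk
  have hsub : Set.Icc 0 l ⊆ Set.Ioo (-ε) (l + ε) := fun σ hσ =>
    ⟨by linarith [hσ.1], by linarith [hσ.2]⟩
  have hI : 0 < ∫ σ in (0 : ℝ)..l, (σ / l) ^ 2 * ambBisec 𝓜 h (γ σ) (deriv γ σ) (deriv γ σ) := by
    refine intervalIntegral.intervalIntegral_pos_of_pos_on ?_ ?_ hl0
    · apply ContinuousOn.intervalIntegrable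
      rw [Set.uIcc_of_le hl0.le]
      exact (by fun_prop : Continuous fun σ : ℝ => (σ / l) ^ 2).continuousOn.mul
        ((sv_continuousOn_ambBisec_along hk hg hpar).mono hsub)
    · intro σ hσ
      have hσI : σ ∈ Set.Icc 0 l := ⟨hσ.1.le, hσ.2.le⟩
      have hne0 : deriv γ σ ≠ 0 := by
        intro h0
        have h1 := hγ.ambQ_eq_one hk hl0 hσI
        rw [h0, ambQ_zero (hγ.mem_carrier hσI)] at h1
        exact zero_ne_one h1
      exact mul_pos (by have := hσ.1; positivity)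
        (sv_ambBisec_pos hb (hγ.mem_carrier hσI) (hγ.deriv_mem_tangent hσI)
          (hγ.deriv_mem_tangent hσI) hne0 hne0)
  refine ⟨s, hs, fun Φ U hΦ z hz hzx => ?_⟩
  have htan' := htan
  rw [← hzx, CMfd.tangent_eq hΦ hz] at htan'
  obtain ⟨a, ha⟩ := htan'
  refine ⟨a, ?_⟩
  have hle := hL Φ U hΦ z hz hzx a (deriv γ) ε hε hpar ha.symm
  have hdiff : DifferentiableAt ℝ (s ∘ Φ) z := hs.smooth.differentiableAt_comp hΦ hz
  have e2 : qf (h Φ z) a = 1 := by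
    rw [← ambQ_param hk.toIsHForm hΦ hz a, ha, hzx, hQ1]
  have e3 : fderiv ℝ (s ∘ Φ) z a = 1 := by
    rw [← ambD_param hΦ hz hdiff a, ha, hzx, hd _ htan, ambB_self, hQ1]
  have hG : 1 / 4 ≤ ‖∑ k, grad10 (s ∘ Φ) z k * a k‖ ^ 2 := by
    rw [sv_normSq_grad10 hdiff a, e3]
    have := sq_nonneg (fderiv ℝ (s ∘ Φ) z (Complex.I • a))
    linarith
  have hfz : (s ∘ Φ) z = l := by
    show s (Φ z) = l
    rw [hzx, hs.eq, hl]
  have h2 : ddc (fun y => Real.log (s y)) Φ z = levi (fun w => Real.log ((s ∘ Φ) w)) z := rfl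
  have h5 : qf (ddc s Φ z) a = qf (levi (s ∘ Φ) z) a := rfl
  rw [h2, sv_qf_levi_log (hs.smooth.contDiffAt_comp_two hΦ hz) (by rw [hfz]; exact hl0.ne'), hfz,
    ← h5]
  rw [e2] at hle
  have h6 : qf (ddc s Φ z) a / l ≤ (1 / (2 * l) - ‖∑ k, grad10 (s ∘ Φ) z k * a k‖ ^ 2 / l -
      (1 / 2) * ∫ σ in (0 : ℝ)..l, (σ / l) ^ 2 * ambBisec 𝓜 h (γ σ) (deriv γ σ) (deriv γ σ)) / l :=
    div_le_div_of_nonneg_right hle hl0.le
  have h7 : (1 / (2 * l) - ‖∑ k, grad10 (s ∘ Φ) z k * a k‖ ^ 2 / l -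
      (1 / 2) * ∫ σ in (0 : ℝ)..l, (σ / l) ^ 2 * ambBisec 𝓜 h (γ σ) (deriv γ σ) (deriv γ σ)) / l -
      ‖∑ k, grad10 (s ∘ Φ) z k * a k‖ ^ 2 / l ^ 2 =
      2 * (1 / 4 - ‖∑ k, grad10 (s ∘ Φ) z k * a k‖ ^ 2) / l ^ 2 -
      (∫ σ in (0 : ℝ)..l, (σ / l) ^ 2 * ambBisec 𝓜 h (γ σ) (deriv γ σ) (deriv γ σ)) / (2 * l) := by
    field_simp
    ring
  have h8 : 2 * (1 / 4 - ‖∑ k, grad10 (s ∘ Φ) z k * a k‖ ^ 2) / l ^ 2 ≤ 0 :=
    div_nonpos_of_nonpos_of_nonneg (by linarith) (by positivity)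
  have h9 : 0 < (∫ σ in (0 : ℝ)..l,
      (σ / l) ^ 2 * ambBisec 𝓜 h (γ σ) (deriv γ σ) (deriv γ σ)) / (2 * l) := by positivity
  linarith

/-- **(SV4)** (moving ball, charts.tex l.370-440) `BK > 0`, `γ` minimizing from `x` to `y` of length `l > 0`.  For the affine holomorphic
germ `a ↦ Φ(z₀ + a v)` through `x` there is a holomorphic germ `a ↦ Ψ(w₀ + a v' + a² q)` through `y`, `|v'| = |v|`
(`v'` = parallel translate of `v`), such that the distance of the two germs stays `≤ l`. -/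
theorem sv4 (hk : IsKahler 𝓜 h) (hconn : IsConnected 𝓜.carrier) (hb : BisecPos 𝓜 h) {γ : ℝ → V}
    {x y : V} {l : ℝ} (hγ : IsMinGeod 𝓜 h γ x y l) (hl : 0 < l)
    {Φ Ψ : CE ι → V} {U W : Set (CE ι)} (hΦ : 𝓜.IsHol Φ U) (hΨ : 𝓜.IsHol Ψ W) {z₀ w₀ : CE ι}
    (hz₀ : z₀ ∈ U) (hw₀ : w₀ ∈ W) (hx : Φ z₀ = x) (hy : Ψ w₀ = y) (v : CE ι) :
    ∃ v' q : CE ι, qf (h Ψ w₀) v' = qf (h Φ z₀) v ∧
      ∀ᶠ a : ℂ in 𝓝 0, hdist 𝓜 h (Φ (z₀ + a • v)) (Ψ (w₀ + a • v' + a ^ 2 • q)) ≤ l :=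
  sv4_main hk hconn hb hγ hl hΦ hΨ hz₀ hw₀ hx hy v

/-- **(SV5)** index inequality: `γ` minimizing, `φ(0) = φ(l) = 0`:
`∫ φ² Ric(T,T) ≤ (2n-1) ∫ φ'²` (real Ricci `= 2 qf (ricF h)`). -/
theorem sv5 (hk : IsKahler 𝓜 h) (hconn : IsConnected 𝓜.carrier) {γ : ℝ → V} {x y : V} {l : ℝ}
    (hγ : IsMinGeod 𝓜 h γ x y l) (hl : 0 < l) {φ : ℝ → ℝ} (hφ : ContDiff ℝ 1 φ) (h0 : φ 0 = 0)
    (h1 : φ l = 0) :
    2 * ∫ σ in (0 : ℝ)..l, φ σ ^ 2 * ambQ 𝓜 (ricF h) (γ σ) (deriv γ σ) ≤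
      (2 * (Fintype.card ι : ℝ) - 1) * ∫ σ in (0 : ℝ)..l, deriv φ σ ^ 2 := by
  obtain ⟨ψ, hψ, hψ0, hψ1, hc0, hc1⟩ := sv_exists_approx hl hφ h0 h1
  obtain ⟨ε, hε, hgeo, -⟩ := sv_exists_unit hk hγ hl
  have hsub : Set.Icc 0 l ⊆ Set.Ioo (-ε) (l + ε) := fun σ hσ =>
    ⟨by linarith [hσ.1], by linarith [hσ.2]⟩
  have hR : ContinuousOn (fun σ => ambQ 𝓜 (ricF h) (γ σ) (deriv γ σ)) (Set.Icc 0 l) :=
    (sv_continuousOn_ric_along hk hgeo).mono hsub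
  have t1 := sv_tendsto_integral_sq hl (f := φ) (g := ψ) (C := 2 * l) hφ.continuous.continuousOn
    (fun n => (hψ n).continuous.continuousOn) hR hc0
  have t2 := sv_tendsto_integral_sq hl (f := deriv φ) (g := fun n => deriv (ψ n)) (R := fun _ => 1)
    (C := 2) (hφ.continuous_deriv le_rfl).continuousOn
    (fun n => ((hψ n).continuous_deriv (by simp)).continuousOn) continuousOn_const hc1
  simp only [mul_one] at t2
  exact le_of_tendsto_of_tendsto' (t1.const_mul 2) (t2.const_mul _)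
    fun n => sv5_smooth hk hconn hγ hl (hψ n) (hψ0 n) (hψ1 n)

/- PLAN of `sv6`.  `s` from `sv_master`; `c t → x` within the carrier, so `hdist o (c t) ≤ s (c t)` eventually (`UpperSupp.le`, `tendsto_nhdsWithin_iff`); `sv_hasDerivAt_comp` gives the derivative
`ambD s x (c' 0) = ambB x (γ' l) (c' 0)` (`CMfd.deriv_mem_tangent`); `HasDerivAt.isLittleO` (`hasDerivAt_iff_isLittleO_nhds_zero`) gives `s (c t) ≤ l + t D + η |t|` eventually. -/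
/-- **(SV6)** first variation: along a differentiable curve `c` through `x = c 0` the distance from `o` grows at most at the rate
`⟨T, c'(0)⟩`. -/
theorem sv6 (hk : IsKahler 𝓜 h) (hconn : IsConnected 𝓜.carrier) {γ : ℝ → V} {o x : V} {l : ℝ}
    (hγ : IsMinGeod 𝓜 h γ o x l) (hl : 0 < l) {c : ℝ → V} (hc : DifferentiableAt ℝ c 0)
    (hmem : ∀ᶠ t in 𝓝 0, c t ∈ 𝓜.carrier) (hc0 : c 0 = x) {η : ℝ} (hη : 0 < η) :
    ∀ᶠ t in 𝓝 (0 : ℝ), hdist 𝓜 h o (c t) ≤ l + t * ambB 𝓜 h x (deriv γ l) (deriv c 0) + η * |t| := by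
  obtain ⟨s, hs, hd, -⟩ := sv_master_amb hk hconn hγ hl
  have ht : Filter.Tendsto c (𝓝 0) (𝓝[𝓜.carrier] x) :=
    tendsto_nhdsWithin_iff.2 ⟨hc0 ▸ hc.continuousAt.tendsto, hmem⟩
  have hle := ht.eventually hs.le
  have hder := sv_hasDerivAt_comp hs.smooth hc hmem
  have htan : deriv c 0 ∈ 𝓜.tangent x := hc0 ▸ CMfd.deriv_mem_tangent hc hmem
  rw [hc0, hd _ htan] at hder
  have hs0 : s (c 0) = l := by rw [hc0, hs.eq]; exact hγ.2.2.2.1.symm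
  have hlo := (hasDerivAt_iff_isLittleO_nhds_zero.1 hder).def hη
  filter_upwards [hle, hlo] with t h1 h2
  simp only [zero_add, hs0, smul_eq_mul, Real.norm_eq_abs] at h2
  have h3 := (abs_le.1 h2).2
  linarith

end Claimed.Agent.R316
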