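import Claimed.Agent.R316.Pack017
import Claimed.Agent.R316.Pack022_2
import Claimed.Agent.R316.Base.Tub.Spray
import Claimed.Agent.R316.Base.RGeo.Kahler

/-!
# Row 316, `BP-G5`, file 2: the energy of trial curves along a LONG geodesic (chain of parametrisations)

Architect: helper154.

DATA.  `γ` a unit speed geodesic of `(𝓜, h)` on `Ioo t₀ t₁`; `P` a finite dimensional real parameter space; `E σ : P →L[ℝ] V` a smooth
family of linear maps such that `σ ↦ E σ p` is parallel along `γ` for every `p`, and `E σ (j p) = J (E σ p)` (`SvFrame`); `φ : ℝ → ℝ` smooth.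
The variation field is `φ(σ) E σ p`.

END DATA (`SvEnd`).  A smooth family of points through `x`, given in ONE holomorphic parametrisation: `p ↦ Φ (β p)`, with first order part
`dΦ (Dβ(0) p) = X p`.  Its covariant acceleration is the ambient tangent vector `svAcc h Φ β p = dΦ (D²β(0)(p,p) + Γ(Dβ p, Dβ p))`.

MAIN RESULT `SvFrame.good`: for `t₀ < a < b < t₁` the statement `SvGood … a b` holds: there is `𝓘 : P → ℝ` (the index form of `φ E p` on `[a,b]`),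
depending only on `γ, E, φ, a, b`, with
* `𝓘 p + 𝓘 (j p) = 2 |E p|² ∫ φ'² - 2 ∫ φ² bisec(E p, γ')`,
* `𝓘 p = κ² ∫ φ'²` if `E p = κ γ'`,
and for ALL end data at `γ a` and `γ b` (first order parts `φ(a) E a`, `φ(b) E b`) a function `𝓔`, smooth near `0`, with
`hdist (Φa (βa p)) (Φb (βb p))² ≤ (b - a) 𝓔 p`, `𝓔 0 = b - a`, `D𝓔(0) p = 2 [φ ⟨γ', E p⟩]_a^b`,
`D²𝓔(0)(p,p) = 2 𝓘 p + 2 [⟨γ', svAcc⟩]_a^b`.

PROOF.  (1) `SvLocal.good`: if `γ [a,b]` lies in one parametrisation `Φ`: transport the end data to `Φ` (`svEnd_trans`, uses `chris_trans`), apply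
`SV/Var.lean` to `S = kgeo h Φ U`, `X σ = φ σ • Ec σ`, `ra p = β'a p - c a - X a p`, `rb` likewise; `hdist ≤ length ≤ √((b-a) energy)`.
(2) `SvGood.trans`: choose any end data at the intermediate point `γ m` (`exists_svEnd`), add the two energies; the boundary terms at `m` cancel
IDENTICALLY (same end data on both sides); `(√(x u) + √(y v))² ≤ (x + y)(u + v)`.
(3) `sv_interval_induction`: local + additive ⟹ global.

LEAVES: `G5-CH-A` (section 2), `G5-CH-B` (section 3), `G5-CH-C1`, `G5-CH-C2` (section 4), `G5-CH-D` (section 5).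
-/

set_option autoImplicit false
set_option linter.unusedSectionVars false
open scoped ContDiff ComplexOrder Topology

namespace Claimed.Agent.R316

variable {V : Type} [NormedAddCommGroup V] [NormedSpace ℝ V] [FiniteDimensional ℝ V]
variable {ι : Type} [Fintype ι] [DecidableEq ι]
variable {P : Type} [NormedAddCommGroup P] [NormedSpace ℝ P] [FiniteDimensional ℝ P]

/-! ### 1. Definitions -/

/-- a unit speed geodesic with a smooth linear family of parallel fields, compatible with the complex structure. -/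
structure SvFrame (𝓜 : CMfd V ι) (h : HFam V ι) (γ : ℝ → V) (E : ℝ → P →L[ℝ] V) (j : P → P)
    (t₀ t₁ : ℝ) : Prop where
  geod : IsGeodesic 𝓜 h γ (Set.Ioo t₀ t₁)
  unit : ∀ σ ∈ Set.Ioo t₀ t₁, ambQ 𝓜 h (γ σ) (deriv γ σ) = 1
  smooth : ContDiffOn ℝ ∞ E (Set.Ioo t₀ t₁)
  par : ∀ p, IsParallelAlong 𝓜 h γ (fun σ => E σ p) (Set.Ioo t₀ t₁)
  cplx : ∀ σ ∈ Set.Ioo t₀ t₁, ∀ p, E σ (j p) = ambJ 𝓜 (γ σ) (E σ p)

/-- end data: the smooth family of points `p ↦ Φ (β p)` through `x` with first order part `X`. -/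
structure SvEnd (𝓜 : CMfd V ι) (Φ : CE ι → V) (U : Set (CE ι)) (β : P → CE ι) (x : V)
    (X : P →L[ℝ] V) : Prop where
  hol : 𝓜.IsHol Φ U
  smooth : ContDiff ℝ ∞ β
  mem : β 0 ∈ U
  base : Φ (β 0) = x
  vel : ∀ p, fderiv ℝ Φ (β 0) (fderiv ℝ β 0 p) = X p

/-- covariant acceleration at `0` of the family of points `p ↦ Φ (β p)` in the direction `p` (an ambient tangent vector). -/
noncomputable def svAcc (h : HFam V ι) (Φ : CE ι → V) (β : P → CE ι) (p : P) : V :=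
  fderiv ℝ Φ (β 0)
    (fderiv ℝ (fderiv ℝ β) 0 p p + chris (h Φ) (β 0) (fderiv ℝ β 0 p) (fderiv ℝ β 0 p))

/-- the statement proved for every interval `[a,b]` (see the header). -/
def SvGood (𝓜 : CMfd V ι) (h : HFam V ι) (γ : ℝ → V) (E : ℝ → P →L[ℝ] V) (j : P → P) (φ : ℝ → ℝ)
    (a b : ℝ) : Prop :=
  ∃ 𝓘 : P → ℝ,
    (∀ p, IntervalIntegrable (fun σ => φ σ ^ 2 * ambBisec 𝓜 h (γ σ) (E σ p) (deriv γ σ))
      MeasureTheory.volume a b) ∧
    (∀ p, 𝓘 p + 𝓘 (j p) = 2 * (ambQ 𝓜 h (γ a) (E a p) * ∫ σ in a..b, deriv φ σ ^ 2) -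
      2 * ∫ σ in a..b, φ σ ^ 2 * ambBisec 𝓜 h (γ σ) (E σ p) (deriv γ σ)) ∧
    (∀ (p : P) (κ : ℝ), (∀ σ ∈ Set.Icc a b, E σ p = κ • deriv γ σ) →
      𝓘 p = κ ^ 2 * ∫ σ in a..b, deriv φ σ ^ 2) ∧
    ∀ (Φa Φb : CE ι → V) (Ua Ub : Set (CE ι)) (βa βb : P → CE ι),
      SvEnd 𝓜 Φa Ua βa (γ a) (φ a • E a) → SvEnd 𝓜 Φb Ub βb (γ b) (φ b • E b) →
      ∃ (𝓔 : P → ℝ) (N : Set P), IsOpen N ∧ (0 : P) ∈ N ∧ ContDiffOn ℝ ∞ 𝓔 N ∧
        (∀ p ∈ N, 0 ≤ 𝓔 p ∧ hdist 𝓜 h (Φa (βa p)) (Φb (βb p)) ^ 2 ≤ (b - a) * 𝓔 p) ∧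
        𝓔 0 = b - a ∧
        (∀ p, fderiv ℝ 𝓔 0 p = 2 * (φ b * ambB 𝓜 h (γ b) (deriv γ b) (E b p) -
          φ a * ambB 𝓜 h (γ a) (deriv γ a) (E a p))) ∧
        ∀ p, fderiv ℝ (fderiv ℝ 𝓔) 0 p p = 2 * 𝓘 p +
          2 * ambB 𝓜 h (γ b) (deriv γ b) (svAcc h Φb βb p) -
          2 * ambB 𝓜 h (γ a) (deriv γ a) (svAcc h Φa βa p)

/-- representation of `γ` and `E` on `Ioo s₀ s₁` in ONE holomorphic parametrisation. -/
structure SvLocal (𝓜 : CMfd V ι) (h : HFam V ι) (γ : ℝ → V) (E : ℝ → P →L[ℝ] V) (j : P → P)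
    (Φ : CE ι → V) (U : Set (CE ι)) (c : ℝ → CE ι) (Ec : ℝ → P →L[ℝ] CE ι) (s₀ s₁ : ℝ) : Prop where
  hol : 𝓜.IsHol Φ U
  geod : (kgeo h Φ U).IsGeod c (Set.Ioo s₀ s₁)
  pt : ∀ σ ∈ Set.Ioo s₀ s₁, Φ (c σ) = γ σ
  vel : ∀ σ ∈ Set.Ioo s₀ s₁, fderiv ℝ Φ (c σ) (deriv c σ) = deriv γ σ
  unit : ∀ σ ∈ Set.Ioo s₀ s₁, qf (h Φ (c σ)) (deriv c σ : CE ι) = 1
  smooth : ContDiffOn ℝ ∞ Ec (Set.Ioo s₀ s₁)
  frame : ∀ σ ∈ Set.Ioo s₀ s₁, ∀ p, fderiv ℝ Φ (c σ) (Ec σ p) = E σ p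
  par : ∀ p, (kgeo h Φ U).IsParallel c (fun σ => Ec σ p) (Set.Ioo s₀ s₁)
  cplx : ∀ σ ∈ Set.Ioo s₀ s₁, ∀ p, Ec σ (j p) = Complex.I • Ec σ p

variable {𝓜 : CMfd V ι} {h : HFam V ι} {γ : ℝ → V} {E : ℝ → P →L[ℝ] V} {j : P → P} {φ : ℝ → ℝ}
  {t₀ t₁ : ℝ}

/-! ### 2. Elementary tools (leaf `G5-CH-A`)

PLANS.  `sv_interval_induction`: Lebesgue number of the cover of `Icc a b` by the intervals `Ioo (t - δ_t) (t + δ_t)` (`lebesgue_number_lemma_of_metric`), then induction on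
`k` for `Q a (a + k (b-a)/n)`; or: `sSup {t ∈ Icc a b | t = a ∨ Q a t}`.
`sv_sqrt_add_sq_le`: `2 √(xu) √(yv) ≤ x v + y u` (AM-GM: `(√(xv) - √(yu))² ≥ 0`).
`sv_exists_lift`: `L := dρ_x ∘L X` with `ρ` the smooth local left inverse of `Φ` (`IsParam.exists_smooth_leftInverse`); `X p = dΦ_z v` for some `v`
(`CMfd.tangent_eq`) and `dρ_x (dΦ_z v) = v` (chain rule for `ρ ∘ Φ = id` near `z`).
`exists_svEnd`: `Φ = 𝓜.pΦ x`, `β p = 𝓜.co x + L p`. -/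

section tools

/-- local + additive ⟹ global. -/
theorem sv_interval_induction {Q : ℝ → ℝ → Prop} {a b : ℝ} (hab : a < b)
    (hloc : ∀ t ∈ Set.Icc a b, ∃ δ > 0, ∀ s s' : ℝ, t - δ < s → s < s' → s' < t + δ → a ≤ s → s' ≤ b →
      Q s s')
    (hadd : ∀ s m s' : ℝ, a ≤ s → s < m → m < s' → s' ≤ b → Q s m → Q m s' → Q s s') : Q a b := by
  choose! δ hδ hQ using hloc
  obtain ⟨η, hη, hleb⟩ := lebesgue_number_lemma_of_metric
    (c := fun t : Set.Icc a b => Set.Ioo ((t : ℝ) - δ t) ((t : ℝ) + δ t)) isCompact_Icc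
    (fun _ => isOpen_Ioo) (fun t ht => Set.mem_iUnion.2 ⟨⟨t, ht⟩, by
      have := hδ t ht
      constructor <;> simp <;> linarith⟩)
  have small : ∀ s s' : ℝ, a ≤ s → s < s' → s' ≤ b → s' - s < η → Q s s' := by
    intro s s' h1 h2 h3 h4
    obtain ⟨t, ht⟩ := hleb s ⟨h1, (h2.trans_le h3).le⟩
    have m1 : s ∈ Metric.ball s η := Metric.mem_ball_self hη
    have m2 : s' ∈ Metric.ball s η := by
      rw [Metric.mem_ball, Real.dist_eq, abs_of_pos (sub_pos.2 h2)]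
      exact h4
    exact hQ t t.2 s s' (ht m1).1 h2 (ht m2).2 h1 h3
  have ind : ∀ n : ℕ, ∀ s s' : ℝ, a ≤ s → s < s' → s' ≤ b → s' - s < n * (η / 2) → Q s s' := by
    intro n
    induction n with
    | zero =>
      intro s s' _ h2 _ h4
      simp at h4
      linarith
    | succ n ih =>
      intro s s' h1 h2 h3 h4
      by_cases hs : s' - s < η
      · exact small s s' h1 h2 h3 hs
      · rw [not_lt] at hs
        push_cast at h4
        refine hadd s (s + η / 2) s' h1 (by linarith) (by linarith) h3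
          (small _ _ h1 (by linarith) (by linarith) (by linarith))
          (ih _ _ (by linarith) (by linarith) h3 (by linarith))
  obtain ⟨n, hn⟩ := exists_nat_gt ((b - a) / (η / 2))
  refine ind n a b le_rfl hab le_rfl ?_
  rwa [div_lt_iff₀ (by positivity)] at hn

theorem sv_sqrt_add_sq_le {x y u v d₁ d₂ : ℝ} (hx : 0 ≤ x) (hy : 0 ≤ y) (hu : 0 ≤ u) (hv : 0 ≤ v)
    (hd₁ : 0 ≤ d₁) (hd₂ : 0 ≤ d₂) (h₁ : d₁ ^ 2 ≤ x * u) (h₂ : d₂ ^ 2 ≤ y * v) :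
    (d₁ + d₂) ^ 2 ≤ (x + y) * (u + v) := by
  have h3 : (d₁ * d₂) ^ 2 ≤ ((x * v + y * u) / 2) ^ 2 := by
    have h4 : d₁ ^ 2 * d₂ ^ 2 ≤ (x * u) * (y * v) :=
      mul_le_mul h₁ h₂ (sq_nonneg _) (mul_nonneg hx hu)
    nlinarith [sq_nonneg (x * v - y * u)]
  have h5 : d₁ * d₂ ≤ (x * v + y * u) / 2 :=
    (pow_le_pow_iff_left₀ (mul_nonneg hd₁ hd₂) (by positivity) two_ne_zero).1 h3
  nlinarith

/-- a linear family of tangent vectors has linear coordinates. -/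
theorem sv_exists_lift {Φ : CE ι → V} {U : Set (CE ι)} (hΦ : 𝓜.IsHol Φ U) {z : CE ι} (hz : z ∈ U)
    (X : P →L[ℝ] V) (hX : ∀ p, X p ∈ 𝓜.tangent (Φ z)) :
    ∃ L : P →L[ℝ] CE ι, ∀ p, fderiv ℝ Φ z (L p) = X p := by
  obtain ⟨P₀, hP₀⟩ := LinearMap.exists_leftInverse_of_injective
    (fderiv ℝ Φ z : CE ι →ₗ[ℝ] V) (LinearMap.ker_eq_bot.2 ((𝓜.isParam hΦ).immersion z hz))
  have hP : ∀ v, (LinearMap.toContinuousLinearMap P₀) (fderiv ℝ Φ z v) = v := fun v =>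
    LinearMap.congr_fun hP₀ v
  refine ⟨(LinearMap.toContinuousLinearMap P₀).comp X, fun p => ?_⟩
  have h1 := hX p
  rw [CMfd.tangent_eq hΦ hz] at h1
  obtain ⟨v, hv⟩ := h1
  rw [ContinuousLinearMap.comp_apply, ← hv, hP]

theorem sv_fderiv_affine (z : CE ι) (L : P →L[ℝ] CE ι) (q : P) :
    fderiv ℝ (fun p => z + L p) q = L := by
  rw [fderiv_const_add]
  exact L.fderiv

/-- affine end data. -/
theorem svEnd_affine {Φ : CE ι → V} {U : Set (CE ι)} (hΦ : 𝓜.IsHol Φ U) {z : CE ι} (hz : z ∈ U)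
    (L : P →L[ℝ] CE ι) (X : P →L[ℝ] V) (hL : ∀ p, fderiv ℝ Φ z (L p) = X p) :
    SvEnd 𝓜 Φ U (fun p => z + L p) (Φ z) X where
  hol := hΦ
  smooth := contDiff_const.add L.contDiff
  mem := by simpa using hz
  base := by simp
  vel := fun p => by
    rw [sv_fderiv_affine]
    simpa using hL p

/-- end data exist. -/
theorem exists_svEnd {x : V} (hx : x ∈ 𝓜.carrier) (X : P →L[ℝ] V) (hX : ∀ p, X p ∈ 𝓜.tangent x) :
    ∃ (Φ : CE ι → V) (U : Set (CE ι)) (β : P → CE ι), SvEnd 𝓜 Φ U β x X := by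
  have hΦ := 𝓜.isHol_pΦ hx
  have hz := 𝓜.co_mem hx
  have hxe := 𝓜.pΦ_co hx
  obtain ⟨L, hL⟩ := sv_exists_lift hΦ hz X (by rw [hxe]; exact hX)
  refine ⟨𝓜.pΦ x, 𝓜.pU x, fun p => 𝓜.co x + L p, ?_⟩
  have := svEnd_affine hΦ hz L X hL
  rwa [hxe] at this

/-- constant end data. -/
theorem svEnd_const {Φ : CE ι → V} {U : Set (CE ι)} (hΦ : 𝓜.IsHol Φ U) {z : CE ι} (hz : z ∈ U) :
    SvEnd 𝓜 Φ U (fun _ : P => z) (Φ z) 0 where
  hol := hΦ
  smooth := contDiff_const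
  mem := hz
  base := rfl
  vel := fun p => by simp

theorem sv_chris_zero_left (H : CE ι → Matrix ι ι ℂ) (z b : CE ι) : chris H z 0 b = 0 :=
  LinearMap.map_zero₂ (chrisₗ H z) b

theorem svAcc_const (h : HFam V ι) (Φ : CE ι → V) (z : CE ι) (p : P) :
    svAcc h Φ (fun _ : P => z) p = 0 := by
  have h1 : fderiv ℝ (fun _ : P => z) = fun _ => 0 := by
    funext q
    simp
  simp [svAcc, h1, sv_chris_zero_left]

theorem svAcc_affine (h : HFam V ι) (Φ : CE ι → V) (z : CE ι) (L : P →L[ℝ] CE ι) (p : P) :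
    svAcc h Φ (fun p => z + L p) p = fderiv ℝ Φ z (chris (h Φ) z (L p) (L p)) := by
  have h1 : fderiv ℝ (fun p => z + L p) = fun _ => L := by
    funext q
    exact sv_fderiv_affine z L q
  simp [svAcc, h1]

/-- the points of the family lie on the manifold (near `0`). -/
theorem SvEnd.eventually_mem {Φ : CE ι → V} {U : Set (CE ι)} {β : P → CE ι} {x : V} {X : P →L[ℝ] V}
    (e : SvEnd 𝓜 Φ U β x X) : ∃ N : Set P, IsOpen N ∧ (0 : P) ∈ N ∧ ∀ p ∈ N, β p ∈ U :=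
  ⟨β ⁻¹' U, (𝓜.isParam e.hol).isOpen.preimage e.smooth.continuous, e.mem, fun _ hp => hp⟩

end tools

/-! ### 3. Change of parametrisation of end data (leaf `G5-CH-B`)

PLAN.  `τ := invFunOn Ψ W ∘ Φ` is holomorphic, hence real smooth, on the open set `U ∩ Φ ⁻¹' (Ψ '' W)` (`CMfd.isOpen_overlap`, `CMfd.trans_contDiffOn`); `β' = τ ∘ β`
on the open set `N := β ⁻¹' (U ∩ Φ ⁻¹' (Ψ '' W))`; `Ψ (τ z) = Φ z` (`CMfd.trans_spec`); `dΨ ∘ dτ = dΦ` (`CMfd.fderiv_eq_comp_trans`);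
`Dβ'(0) = dτ ∘ Dβ(0)`, `D²β'(0)(p,p) = D²τ(Dβ p, Dβ p) + dτ (D²β(0)(p,p))` (second derivative of a composition);
`chris_trans` (`Tub/Spray.lean`): `dτ (Γ^Φ(a,a)) = D²τ(a,a) + Γ^Ψ(dτ a, dτ a)`.  Hence `D²β'(p,p) + Γ^Ψ(Dβ' p, Dβ' p) = dτ (D²β(p,p) + Γ^Φ(Dβ p, Dβ p))`. -/

section trans

/-- 2-jet of a composition. -/
theorem sv_fderiv2_comp {A B C : Type} [NormedAddCommGroup A] [NormedSpace ℝ A]
    [NormedAddCommGroup B] [NormedSpace ℝ B] [NormedAddCommGroup C] [NormedSpace ℝ C]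
    {g : B → C} {f : A → B} {x : A} (hg : ContDiffAt ℝ 2 g (f x)) (hf : ContDiffAt ℝ 2 f x) (p : A) :
    fderiv ℝ (fun q => g (f q)) x p = fderiv ℝ g (f x) (fderiv ℝ f x p) ∧
    fderiv ℝ (fderiv ℝ (fun q => g (f q))) x p p =
      fderiv ℝ (fderiv ℝ g) (f x) (fderiv ℝ f x p) (fderiv ℝ f x p) +
        fderiv ℝ g (f x) (fderiv ℝ (fderiv ℝ f) x p p) := by
  have ef : ∀ᶠ y in 𝓝 x, DifferentiableAt ℝ f y :=
    (hf.eventually (by simp)).mono fun _ h => h.differentiableAt (by norm_num)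
  have eg : ∀ᶠ y in 𝓝 x, DifferentiableAt ℝ g (f y) :=
    hf.continuousAt.eventually
      ((hg.eventually (by simp)).mono fun _ h => h.differentiableAt (by norm_num))
  have h1 : (fderiv ℝ fun q => g (f q)) =ᶠ[𝓝 x] fun y => (fderiv ℝ g (f y)).comp (fderiv ℝ f y) := by
    filter_upwards [ef, eg] with y h1 h2
    exact (h2.hasFDerivAt.comp y h1.hasFDerivAt).fderiv
  have dg : HasFDerivAt (fderiv ℝ g) (fderiv ℝ (fderiv ℝ g) (f x)) (f x) :=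
    ((hg.fderiv_right (m := 1) (by norm_num)).differentiableAt (by norm_num)).hasFDerivAt
  have df : HasFDerivAt (fderiv ℝ f) (fderiv ℝ (fderiv ℝ f) x) x :=
    ((hf.fderiv_right (m := 1) (by norm_num)).differentiableAt (by norm_num)).hasFDerivAt
  have dc := dg.comp x ef.self_of_nhds.hasFDerivAt
  have h2 := dc.clm_comp df
  constructor
  · rw [h1.self_of_nhds]; rfl
  · have h2' : fderiv ℝ (fun y => (fderiv ℝ g (f y)).comp (fderiv ℝ f y)) x = _ := h2.fderiv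
    rw [h1.fderiv_eq, h2']
    simp [add_comm]

theorem svEnd_trans (hm : IsMetric 𝓜 h) {Φ Ψ : CE ι → V} {U W : Set (CE ι)} {β : P → CE ι} {x : V}
    {X : P →L[ℝ] V} (e : SvEnd 𝓜 Φ U β x X) (hΨ : 𝓜.IsHol Ψ W) (hx : x ∈ Ψ '' W) :
    ∃ N : Set P, IsOpen N ∧ (0 : P) ∈ N ∧
      ContDiffOn ℝ ∞ (fun p => Function.invFunOn Ψ W (Φ (β p))) N ∧
      (∀ p ∈ N, β p ∈ U ∧ Function.invFunOn Ψ W (Φ (β p)) ∈ W ∧
        Ψ (Function.invFunOn Ψ W (Φ (β p))) = Φ (β p)) ∧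
      (∀ p, fderiv ℝ Ψ (Function.invFunOn Ψ W x)
        (fderiv ℝ (fun p => Function.invFunOn Ψ W (Φ (β p))) 0 p) = X p) ∧
      ∀ p, svAcc h Ψ (fun p => Function.invFunOn Ψ W (Φ (β p))) p = svAcc h Φ β p := by
  have hΦ := e.hol
  have hov := CMfd.isOpen_overlap hΦ hΨ
  have h0 : β 0 ∈ U ∩ Φ ⁻¹' (Ψ '' W) := ⟨e.mem, by
    show Φ (β 0) ∈ Ψ '' W
    rw [e.base]; exact hx⟩
  have hτ : ContDiffAt ℝ 2 (Function.invFunOn Ψ W ∘ Φ) (β 0) :=
    (CMfd.trans_contDiffAt hΦ hΨ h0).of_le ENat.LEInfty.out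
  have hβ : ContDiffAt ℝ 2 β 0 := e.smooth.contDiffAt.of_le ENat.LEInfty.out
  have hre : ∀ v, fderiv ℝ Φ (β 0) v = fderiv ℝ Ψ ((Function.invFunOn Ψ W ∘ Φ) (β 0))
      (fderiv ℝ (Function.invFunOn Ψ W ∘ Φ) (β 0) v) := fun v => by
    rw [CMfd.fderiv_eq_comp_trans hΦ hΨ h0 v, (CMfd.trans_hasFDerivAt_real hΦ hΨ h0).fderiv]
    rfl
  have hbase : (Function.invFunOn Ψ W ∘ Φ) (β 0) = Function.invFunOn Ψ W x := by
    show Function.invFunOn Ψ W (Φ (β 0)) = _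
    rw [e.base]
  refine ⟨β ⁻¹' (U ∩ Φ ⁻¹' (Ψ '' W)), hov.preimage e.smooth.continuous, h0,
    (CMfd.trans_contDiffOn hΦ hΨ).comp e.smooth.contDiffOn (fun p hp => hp),
    fun p hp => ⟨hp.1, CMfd.trans_mem hΦ hΨ hp, CMfd.trans_spec hΦ hΨ hp⟩, fun p => ?_, fun p => ?_⟩
  · have h1 := (sv_fderiv2_comp hτ hβ p).1
    have h1' : fderiv ℝ (fun p => Function.invFunOn Ψ W (Φ (β p))) 0 p = _ := h1
    rw [h1', ← hbase, ← hre, e.vel]
  · obtain ⟨h1, h2⟩ := sv_fderiv2_comp hτ hβ p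
    have h1' : fderiv ℝ (fun p => Function.invFunOn Ψ W (Φ (β p))) 0 p = _ := h1
    have h2' : fderiv ℝ (fderiv ℝ (fun p => Function.invFunOn Ψ W (Φ (β p)))) 0 p p = _ := h2
    have h3 := chris_trans hm hΦ hΨ h0 (fderiv ℝ β 0 p) (fderiv ℝ β 0 p)
    unfold svAcc
    rw [h1', h2', hre, map_add (fderiv ℝ (Function.invFunOn Ψ W ∘ Φ) (β 0)), h3]
    show fderiv ℝ Ψ ((Function.invFunOn Ψ W ∘ Φ) (β 0)) _ = _
    congr 1
    abel

end trans

/-! ### 4. One parametrisation (leaves `G5-CH-C1`: `SvFrame.exists_local`; `G5-CH-C2`: `SvLocal.good`)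

PLAN of `SvFrame.exists_local`.  `x = γ t`, `Φ = 𝓜.pΦ x`, `U = 𝓜.pU x`, `(O, ρ)` from `IsParam.exists_smooth_leftInverse`; `γ` is continuous at `t`, so `γ σ ∈ O` on
`Ioo (t-δ) (t+δ) ⊆ Ioo t₀ t₁`, hence `γ σ ∈ Φ '' U`.  `c := invFunOn Φ U ∘ γ`, `Ec σ := (fderiv ℝ ρ (γ σ)) ∘L E σ`.  `geod`: definition of `IsGeodesic`.  `vel`: chain rule for
`γ = Φ ∘ c`.  `unit`: `ambQ_param`.  `smooth`: `ρ` smooth on `O`, `γ`, `E` smooth.  `frame`: `E σ p ∈ T = range dΦ_{c σ}` (`CMfd.tangent_eq`), `dρ ∘ dΦ = id`.  `par`: the third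
clause of `IsParallelAlong`, and `coVec Φ (c σ) (E σ p) = Ec σ p` (`IsParam.coVec_fderiv`).  `cplx`: `ambJ_param` + injectivity of `dΦ`.

PLAN of `SvLocal.good`.  `S := kgeo h Φ U` is `IsRiem` (`BP-G1`, Kaehler file).  `𝓘 p := ∫_a^b (φ'² G(Ec p, Ec p) - φ² secNum(Ec p, c'))`.
* `G (c σ) u v = reForm (h Φ (c σ)) u v = ambB (γ σ) (dΦ u) (dΦ v)` (`ambB_param`); `σ ↦ G(Ec p, Ec p)` is constant (`IsRiem.hasDerivAt_G`, `par`), `= ambQ (γ a) (E a p)`.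
* bridge (`BP-G1`): `secNum z a b + secNum z (I • a) b = 2 bisec h Φ z a b`; `ambBisec_param`; continuity of `σ ↦ bisec h Φ (c σ) (Ec σ p) (c' σ)` from `contDiffOn_Rm`.
* tangential clause: `Ec σ p = κ c' σ` (injectivity of `dΦ`), `secNum_smul_left`, `secNum_self`, `G(c',c') = 1`.
* end data: `svEnd_trans` gives `β'a, β'b` on `N`; `X σ := φ σ • Ec σ`; `ra p := β'a p - c a - X a p`, `rb` likewise: `SvData S c X ra rb N s₀ s₁ a b`
  (`dra0`: `dΦ (Dβ'a(0) p) = φ a • E a p = dΦ (X a p)` and `dΦ` is injective).  `𝓔 := svEn …`, `N'` from `SvData.exists_nhds`.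
* `svF (a,p) = β'a p`, `svF (b,p) = β'b p` (`svF_left/right`); `hdist_le_integral_param` for the curve `σ ↦ svF (σ,p)` (`derivWithin = svFd`), `qf = G`, `sv_sq_integral_sqrt_le`.
* `covD c (fun s => φ s • Ec s p) σ = φ' σ • Ec σ p` (`covD_smul`, `par`); `secNum_smul_left`; `D²ra(0) = D²β'a(0)`;
  `SvData.svEn_zero`, `fderiv_svEn`, `fderiv2_svEn`. -/

section local_

/-- the derivative of a smooth local left inverse inverts `dΦ`. -/
theorem sv_fderiv_leftInverse {Φ : CE ι → V} {U : Set (CE ι)} (hp : IsParam 𝓜.carrier Φ U)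
    {O : Set V} {ρ : V → CE ι} (hO : IsOpen O) (hρ : ContDiffOn ℝ ∞ ρ O)
    (hinv : ∀ x ∈ 𝓜.carrier ∩ O, x ∈ Φ '' U ∧ ρ x = Function.invFunOn Φ U x) {z : CE ι} (hz : z ∈ U)
    (hzO : Φ z ∈ O) (v : CE ι) : fderiv ℝ ρ (Φ z) (fderiv ℝ Φ z v) = v := by
  have dΦ : DifferentiableAt ℝ Φ z :=
    (hp.smooth.contDiffAt (hp.isOpen.mem_nhds hz)).differentiableAt (by simp)
  have dρ : DifferentiableAt ℝ ρ (Φ z) :=
    (hρ.contDiffAt (hO.mem_nhds hzO)).differentiableAt (by simp)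
  have h1 : (ρ ∘ Φ) =ᶠ[𝓝 z] id := by
    filter_upwards [hp.isOpen.mem_nhds hz, dΦ.continuousAt.eventually (hO.mem_nhds hzO)] with w hw hwO
    show ρ (Φ w) = w
    rw [(hinv (Φ w) ⟨hp.mem hw, hwO⟩).2, hp.leftInv hw]
  have h2 := (dρ.hasFDerivAt.comp z dΦ.hasFDerivAt).fderiv
  rw [h1.fderiv_eq, fderiv_id] at h2
  have h3 := congrArg (fun T : CE ι →L[ℝ] CE ι => T v) h2
  simpa using h3.symm

theorem SvFrame.exists_local (hk : IsKahler 𝓜 h) (F : SvFrame 𝓜 h γ E j t₀ t₁) {t : ℝ}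
    (ht : t ∈ Set.Ioo t₀ t₁) :
    ∃ δ > 0, Set.Ioo (t - δ) (t + δ) ⊆ Set.Ioo t₀ t₁ ∧
      ∃ (Φ : CE ι → V) (U : Set (CE ι)) (c : ℝ → CE ι) (Ec : ℝ → P →L[ℝ] CE ι),
        SvLocal 𝓜 h γ E j Φ U c Ec (t - δ) (t + δ) := by
  have hx : γ t ∈ 𝓜.carrier := F.geod.2.1 t ht
  have hΦ := 𝓜.isHol_pΦ hx
  have hp := 𝓜.isParam hΦ
  obtain ⟨O, ρ, hO, hzO, hρ, hinv⟩ := hp.exists_smooth_leftInverse (𝓜.co_mem hx)
  rw [𝓜.pΦ_co hx] at hzO
  have hcont : ContinuousAt γ t := (F.geod.1.contDiffAt (isOpen_Ioo.mem_nhds ht)).continuousAt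
  have hnhds : Set.Ioo t₀ t₁ ∩ γ ⁻¹' O ∈ 𝓝 t :=
    Filter.inter_mem (isOpen_Ioo.mem_nhds ht) (hcont.preimage_mem_nhds (hO.mem_nhds hzO))
  obtain ⟨δ, hδ, hball⟩ := Metric.mem_nhds_iff.1 hnhds
  rw [Real.ball_eq_Ioo] at hball
  have hI : Set.Ioo (t - δ) (t + δ) ⊆ Set.Ioo t₀ t₁ := fun σ hσ => (hball hσ).1
  have hγO : ∀ σ ∈ Set.Ioo (t - δ) (t + δ), γ σ ∈ O := fun σ hσ => (hball hσ).2
  have hγM : ∀ σ ∈ Set.Ioo (t - δ) (t + δ), γ σ ∈ 𝓜.carrier := fun σ hσ => F.geod.2.1 σ (hI hσ)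
  have hc : ∀ σ ∈ Set.Ioo (t - δ) (t + δ), ρ (γ σ) ∈ 𝓜.pU (γ t) ∧ 𝓜.pΦ (γ t) (ρ (γ σ)) = γ σ := by
    intro σ hσ
    obtain ⟨h1, h2⟩ := hinv (γ σ) ⟨hγM σ hσ, hγO σ hσ⟩
    rw [h2]
    exact ⟨Function.invFunOn_mem h1, Function.invFunOn_eq h1⟩
  have hgeod := F.geod.2.2 _ _ hΦ (fun σ => ρ (γ σ)) _ hI isOpen_Ioo hc
  have hfr : ∀ σ ∈ Set.Ioo (t - δ) (t + δ), ∀ p,
      fderiv ℝ (𝓜.pΦ (γ t)) (ρ (γ σ)) (fderiv ℝ ρ (γ σ) (E σ p)) = E σ p := by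
    intro σ hσ p
    have h1 := (F.par p).2.1 σ (hI hσ)
    rw [← (hc σ hσ).2, CMfd.tangent_eq hΦ (hc σ hσ).1] at h1
    obtain ⟨v, hv⟩ := h1
    have h2 := sv_fderiv_leftInverse hp hO hρ hinv (hc σ hσ).1
      (by rw [(hc σ hσ).2]; exact hγO σ hσ) v
    rw [(hc σ hσ).2] at h2
    simp only at hv
    rw [← hv, h2]
  have hvel : ∀ σ ∈ Set.Ioo (t - δ) (t + δ),
      fderiv ℝ (𝓜.pΦ (γ t)) (ρ (γ σ)) (deriv (fun σ => ρ (γ σ)) σ) = deriv γ σ := by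
    intro σ hσ
    have hn := isOpen_Ioo.mem_nhds hσ
    have d1 : DifferentiableAt ℝ (fun σ => ρ (γ σ)) σ :=
      (hgeod.1.contDiffAt hn).differentiableAt (by simp)
    have d2 : DifferentiableAt ℝ (𝓜.pΦ (γ t)) (ρ (γ σ)) :=
      (hp.smooth.contDiffAt (hp.isOpen.mem_nhds (hc σ hσ).1)).differentiableAt (by simp)
    have h1 : γ =ᶠ[𝓝 σ] fun s => 𝓜.pΦ (γ t) (ρ (γ s)) := by
      filter_upwards [hn] with s hs
      exact (hc s hs).2.symm
    rw [h1.deriv_eq]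
    exact (d2.hasFDerivAt.comp_hasDerivAt σ d1.hasDerivAt).deriv.symm
  refine ⟨δ, hδ, hI, 𝓜.pΦ (γ t), 𝓜.pU (γ t), fun σ => ρ (γ σ),
    fun σ => (fderiv ℝ ρ (γ σ)).comp (E σ), ?_⟩
  refine
    { hol := hΦ
      geod := hgeod
      pt := fun σ hσ => (hc σ hσ).2
      vel := hvel
      unit := fun σ hσ => ?_
      smooth := ?_
      frame := hfr
      par := fun p σ hσ => ?_
      cplx := fun σ hσ p => ?_ }
  · rw [← ambQ_param hk.toIsHForm hΦ (hc σ hσ).1, hvel σ hσ, (hc σ hσ).2]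
    exact F.unit σ (hI hσ)
  · have h1 : ContDiffOn ℝ ∞ (fderiv ℝ ρ) O := hρ.fderiv_of_isOpen hO (by simp)
    exact (h1.comp (F.geod.1.mono hI) hγO).clm_comp (F.smooth.mono hI)
  · have h1 := (F.par p).2.2 _ _ hΦ (fun σ => ρ (γ σ)) _ hI isOpen_Ioo hc σ hσ
    rw [← h1]
    refine RGeo.covD_congr _ (Filter.EventuallyEq.refl _ _) ?_
    filter_upwards [isOpen_Ioo.mem_nhds hσ] with s hs
    simp only [ContinuousLinearMap.comp_apply]
    rw [← hfr s hs p, hp.coVec_fderiv (hc s hs).1, hfr s hs p]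
  · apply hp.immersion _ (hc σ hσ).1
    simp only [ContinuousLinearMap.comp_apply]
    rw [hfr σ hσ, F.cplx σ (hI hσ), ← ambJ_param hΦ (hc σ hσ).1, hfr σ hσ, (hc σ hσ).2]

section loc
variable {Φ : CE ι → V} {U : Set (CE ι)} {c : ℝ → CE ι} {Ec : ℝ → P →L[ℝ] CE ι} {s₀ s₁ : ℝ}

theorem SvLocal.riem (hk : IsKahler 𝓜 h) (L : SvLocal 𝓜 h γ E j Φ U c Ec s₀ s₁) :
    (kgeo h Φ U).IsRiem := kgeo_isRiem hk L.hol

theorem SvLocal.memU (L : SvLocal 𝓜 h γ E j Φ U c Ec s₀ s₁) {σ : ℝ} (hσ : σ ∈ Set.Ioo s₀ s₁) :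
    c σ ∈ U := L.geod.2.1 σ hσ

/-- the metric in the parametrisation is the ambient one. -/
theorem SvLocal.G_amb (hk : IsKahler 𝓜 h) (L : SvLocal 𝓜 h γ E j Φ U c Ec s₀ s₁) {σ : ℝ}
    (hσ : σ ∈ Set.Ioo s₀ s₁) (u v : CE ι) :
    (kgeo h Φ U).G (c σ) u v = ambB 𝓜 h (γ σ) (fderiv ℝ Φ (c σ) u) (fderiv ℝ Φ (c σ) v) := by
  rw [← L.pt σ hσ, ambB_param hk.toIsHForm L.hol (L.memU hσ)]
  rfl

theorem SvLocal.inj (L : SvLocal 𝓜 h γ E j Φ U c Ec s₀ s₁) {σ : ℝ} (hσ : σ ∈ Set.Ioo s₀ s₁) :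
    Function.Injective (fderiv ℝ Φ (c σ)) := (𝓜.isParam L.hol).immersion _ (L.memU hσ)

/-- derivatives of the data. -/
theorem SvLocal.diff (L : SvLocal 𝓜 h γ E j Φ U c Ec s₀ s₁) (p : P) {σ : ℝ}
    (hσ : σ ∈ Set.Ioo s₀ s₁) :
    DifferentiableAt ℝ c σ ∧ DifferentiableAt ℝ (deriv c) σ ∧
      DifferentiableAt ℝ (fun s => Ec s p) σ := by
  have hn : Set.Ioo s₀ s₁ ∈ 𝓝 σ := isOpen_Ioo.mem_nhds hσ
  have d1 : ContDiffOn ℝ ∞ (deriv c) (Set.Ioo s₀ s₁) :=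
    L.geod.1.deriv_of_isOpen isOpen_Ioo (by simp)
  have h2 : ContDiffOn ℝ ∞ (fun s : ℝ => Ec s p) (Set.Ioo s₀ s₁) :=
    L.smooth.clm_apply contDiffOn_const
  exact ⟨(L.geod.1.contDiffAt hn).differentiableAt (by simp),
    (d1.contDiffAt hn).differentiableAt (by simp), (h2.contDiffAt hn).differentiableAt (by simp)⟩

/-- the norm of a parallel field is constant. -/
theorem SvLocal.G_frame (hk : IsKahler 𝓜 h) (L : SvLocal 𝓜 h γ E j Φ U c Ec s₀ s₁) (p : P) {σ a : ℝ}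
    (hσ : σ ∈ Set.Ioo s₀ s₁) (ha : a ∈ Set.Ioo s₀ s₁) :
    (kgeo h Φ U).G (c σ) (Ec σ p) (Ec σ p) = ambQ 𝓜 h (γ a) (E a p) := by
  have hS := L.riem hk
  have hd : ∀ s ∈ Set.Ioo s₀ s₁,
      HasDerivAt (fun s => (kgeo h Φ U).G (c s) (Ec s p) (Ec s p)) 0 s := by
    intro s hs
    obtain ⟨d1, -, d3⟩ := L.diff p hs
    have h1 := hS.hasDerivAt_G (L.memU hs) d1 d3 d3
    rw [L.par p s hs] at h1
    simpa using h1
  have h2 := isOpen_Ioo.is_const_of_deriv_eq_zero (𝕜 := ℝ) isPreconnected_Ioo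
    (fun s hs => (hd s hs).differentiableAt.differentiableWithinAt)
    (fun s hs => (hd s hs).deriv) hσ ha
  rw [h2, L.G_amb hk ha, L.frame a ha, ambB_self]

/-- smoothness of the curvature term. -/
theorem SvLocal.contDiffOn_sec (hk : IsKahler 𝓜 h) (L : SvLocal 𝓜 h γ E j Φ U c Ec s₀ s₁) (p : P) :
    ContDiffOn ℝ ∞ (fun σ => (kgeo h Φ U).secNum (c σ) (Ec σ p) (deriv c σ)) (Set.Ioo s₀ s₁) := by
  have hS := L.riem hk
  have d1 : ContDiffOn ℝ ∞ (deriv c) (Set.Ioo s₀ s₁) :=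
    L.geod.1.deriv_of_isOpen isOpen_Ioo (by simp)
  have h2 : ContDiffOn ℝ ∞ (fun s : ℝ => Ec s p) (Set.Ioo s₀ s₁) :=
    L.smooth.clm_apply contDiffOn_const
  exact hS.contDiffOn_G_comp le_rfl L.geod.1 L.geod.2.1
    (hS.contDiffOn_curv_comp L.geod.1 L.geod.2.1 h2 d1 d1) h2

/-- the two sectional curvatures add up to the bisectional curvature. -/
theorem SvLocal.sec_add (hk : IsKahler 𝓜 h) (L : SvLocal 𝓜 h γ E j Φ U c Ec s₀ s₁) (p : P) {σ : ℝ}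
    (hσ : σ ∈ Set.Ioo s₀ s₁) :
    (kgeo h Φ U).secNum (c σ) (Ec σ p) (deriv c σ) +
      (kgeo h Φ U).secNum (c σ) (Ec σ (j p)) (deriv c σ) =
      2 * ambBisec 𝓜 h (γ σ) (E σ p) (deriv γ σ) := by
  rw [L.cplx σ hσ, kgeo_secNum_add hk L.hol (L.memU hσ), ← L.frame σ hσ, ← L.vel σ hσ, ← L.pt σ hσ,
    ambBisec_param hk L.hol (L.memU hσ)]

/-- covariant derivative of the variation field. -/
theorem SvLocal.covD_field (L : SvLocal 𝓜 h γ E j Φ U c Ec s₀ s₁) (hφ : ContDiff ℝ ∞ φ) (p : P)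
    {σ : ℝ} (hσ : σ ∈ Set.Ioo s₀ s₁) :
    (kgeo h Φ U).covD c (fun s => (φ s • Ec s) p) σ = deriv φ σ • Ec σ p := by
  obtain ⟨-, -, d3⟩ := L.diff p hσ
  have h1 := (kgeo h Φ U).covD_smul (c := c) (hφ.differentiable (by simp) σ) d3
  have h2 : (fun s => (φ s • Ec s) p) = fun s => φ s • Ec s p := by
    funext s; simp
  rw [h2, h1, L.par p σ hσ, smul_zero, add_zero]

/-- transport of end data to the parametrisation of `SvLocal`, in the form needed by `SvData`. -/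
theorem SvLocal.end_data (hk : IsKahler 𝓜 h) (L : SvLocal 𝓜 h γ E j Φ U c Ec s₀ s₁) {t : ℝ}
    (ht : t ∈ Set.Ioo s₀ s₁) {Φa : CE ι → V} {Ua : Set (CE ι)} {βa : P → CE ι} (r₀ : ℝ)
    (ea : SvEnd 𝓜 Φa Ua βa (γ t) (r₀ • E t)) :
    ∃ (r : P → CE ι) (N : Set P), IsOpen N ∧ (0 : P) ∈ N ∧ ContDiffOn ℝ ∞ r N ∧ r 0 = 0 ∧
      fderiv ℝ r 0 = 0 ∧ (∀ p ∈ N, Φ (c t + (r₀ • Ec t) p + r p) = Φa (βa p)) ∧
      ∀ p, ambB 𝓜 h (γ t) (deriv γ t) (svAcc h Φa βa p) =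
        (kgeo h Φ U).G (c t) (fderiv ℝ (fderiv ℝ r) 0 p p +
          (kgeo h Φ U).Γ (c t) ((r₀ • Ec t) p) ((r₀ • Ec t) p)) (deriv c t) := by
  have hS := L.riem hk
  have hx : γ t ∈ Φ '' U := ⟨c t, L.memU ht, L.pt t ht⟩
  obtain ⟨N, hN, h0, hs, hmem, hvel, hacc⟩ := svEnd_trans hk.toIsMetric ea L.hol hx
  have hinv : Function.invFunOn Φ U (γ t) = c t := by
    rw [← L.pt t ht]
    exact (𝓜.isParam L.hol).leftInv (L.memU ht)
  have hb0 : Function.invFunOn Φ U (Φa (βa 0)) = c t := by rw [ea.base, hinv]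
  have hd : fderiv ℝ (fun p => Function.invFunOn Φ U (Φa (βa p))) 0 = r₀ • Ec t := by
    ext1 p
    apply L.inj ht
    have h1 := hvel p
    rw [hinv] at h1
    rw [h1]
    simp [L.frame t ht]
  have hdiff : ∀ q ∈ N, fderiv ℝ (fun p => Function.invFunOn Φ U (Φa (βa p)) - c t - (r₀ • Ec t) p) q =
      fderiv ℝ (fun p => Function.invFunOn Φ U (Φa (βa p))) q - r₀ • Ec t := by
    intro q hq
    have h1 : DifferentiableAt ℝ (fun p => Function.invFunOn Φ U (Φa (βa p))) q :=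
      (hs.contDiffAt (hN.mem_nhds hq)).differentiableAt (by simp)
    have h2 := (h1.hasFDerivAt.sub_const (c t)).sub (r₀ • Ec t).hasFDerivAt
    exact h2.fderiv
  have hdd : fderiv ℝ (fderiv ℝ
      (fun p => Function.invFunOn Φ U (Φa (βa p)) - c t - (r₀ • Ec t) p)) 0 =
      fderiv ℝ (fderiv ℝ (fun p => Function.invFunOn Φ U (Φa (βa p)))) 0 := by
    have h1 : fderiv ℝ (fun p => Function.invFunOn Φ U (Φa (βa p)) - c t - (r₀ • Ec t) p) =ᶠ[𝓝 0]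
        fun q => fderiv ℝ (fun p => Function.invFunOn Φ U (Φa (βa p))) q - r₀ • Ec t := by
      filter_upwards [hN.mem_nhds h0] with q hq
      exact hdiff q hq
    rw [h1.fderiv_eq, fderiv_sub_const]
  refine ⟨fun p => Function.invFunOn Φ U (Φa (βa p)) - c t - (r₀ • Ec t) p, N, hN, h0,
    (hs.sub contDiffOn_const).sub (r₀ • Ec t).contDiff.contDiffOn, by simp [hb0], ?_, ?_, ?_⟩
  · rw [hdiff 0 h0, hd, sub_self]
  · intro p hp
    rw [← (hmem p hp).2.2]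
    congr 1
    simp only [sub_sub, add_sub_cancel]
  · intro p
    rw [hdd, ← hacc p, svAcc, hd, hb0, ← L.vel t ht, ← L.G_amb hk ht, hS.G_symm _ (L.memU ht)]
    rfl

theorem SvLocal.G_field (hk : IsKahler 𝓜 h) (L : SvLocal 𝓜 h γ E j Φ U c Ec s₀ s₁) (r₀ : ℝ) (p : P)
    {t : ℝ} (ht : t ∈ Set.Ioo s₀ s₁) :
    (kgeo h Φ U).G (c t) ((r₀ • Ec t) p) (deriv c t) =
      r₀ * ambB 𝓜 h (γ t) (deriv γ t) (E t p) := by
  rw [(L.riem hk).G_symm _ (L.memU ht), smul_apply, map_smul, smul_eq_mul,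
    L.G_amb hk ht, L.vel t ht, L.frame t ht]

theorem SvLocal.good (hk : IsKahler 𝓜 h) (L : SvLocal 𝓜 h γ E j Φ U c Ec s₀ s₁)
    (hφ : ContDiff ℝ ∞ φ) {a b : ℝ} (ha : s₀ < a) (hab : a < b) (hb : b < s₁) :
    SvGood 𝓜 h γ E j φ a b := by
  have hS := L.riem hk
  have hsubI : Set.Icc a b ⊆ Set.Ioo s₀ s₁ := fun x hx => ⟨ha.trans_le hx.1, hx.2.trans_lt hb⟩
  have hsub : Set.uIcc a b ⊆ Set.Ioo s₀ s₁ := by
    rw [Set.uIcc_of_le hab.le]
    exact hsubI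
  have haI : a ∈ Set.Ioo s₀ s₁ := hsub Set.left_mem_uIcc
  have hbI : b ∈ Set.Ioo s₀ s₁ := hsub Set.right_mem_uIcc
  have hdφ : Continuous (fun σ => deriv φ σ ^ 2) := (hφ.continuous_deriv (by simp)).pow 2
  have iφ := hdφ.intervalIntegrable (μ := MeasureTheory.volume) a b
  have csec : ∀ p, ContinuousOn
      (fun σ => φ σ ^ 2 * (kgeo h Φ U).secNum (c σ) (Ec σ p) (deriv c σ)) (Set.uIcc a b) :=
    fun p => ((hφ.continuous.pow 2).continuousOn).mul ((L.contDiffOn_sec hk p).continuousOn.mono hsub)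
  have isec : ∀ p, IntervalIntegrable
      (fun σ => φ σ ^ 2 * (kgeo h Φ U).secNum (c σ) (Ec σ p) (deriv c σ)) MeasureTheory.volume a b :=
    fun p => (csec p).intervalIntegrable
  have ebis : ∀ p, ∀ σ ∈ Set.uIcc a b, φ σ ^ 2 * ambBisec 𝓜 h (γ σ) (E σ p) (deriv γ σ) =
      (φ σ ^ 2 * (kgeo h Φ U).secNum (c σ) (Ec σ p) (deriv c σ) +
        φ σ ^ 2 * (kgeo h Φ U).secNum (c σ) (Ec σ (j p)) (deriv c σ)) / 2 := by
    intro p σ hσ
    have := L.sec_add hk p (hsub hσ)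
    linear_combination (-(φ σ ^ 2) / 2) * this
  refine ⟨fun p => ambQ 𝓜 h (γ a) (E a p) * (∫ σ in a..b, deriv φ σ ^ 2) -
    ∫ σ in a..b, φ σ ^ 2 * (kgeo h Φ U).secNum (c σ) (Ec σ p) (deriv c σ), ?_, ?_, ?_, ?_⟩
  · intro p
    exact ((((csec p).add (csec (j p))).div_const 2).congr (ebis p)).intervalIntegrable
  · intro p
    have hQ : ambQ 𝓜 h (γ a) (E a (j p)) = ambQ 𝓜 h (γ a) (E a p) := by
      rw [← L.G_frame hk (j p) haI haI, ← L.G_frame hk p haI haI, L.cplx a haI]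
      exact reForm_I_I _ _ _
    have h1 : ∫ σ in a..b, φ σ ^ 2 * ambBisec 𝓜 h (γ σ) (E σ p) (deriv γ σ) =
        ((∫ σ in a..b, φ σ ^ 2 * (kgeo h Φ U).secNum (c σ) (Ec σ p) (deriv c σ)) +
          ∫ σ in a..b, φ σ ^ 2 * (kgeo h Φ U).secNum (c σ) (Ec σ (j p)) (deriv c σ)) / 2 := by
      rw [intervalIntegral.integral_congr (ebis p), intervalIntegral.integral_div,
        intervalIntegral.integral_add (isec p) (isec (j p))]
    simp only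
    rw [hQ, h1]
    ring
  · intro p κ hκ
    have h1 : ∀ σ ∈ Set.uIcc a b, Ec σ p = κ • deriv c σ := by
      intro σ hσ
      apply L.inj (hsub hσ)
      rw [L.frame σ (hsub hσ), map_smul, L.vel σ (hsub hσ)]
      exact hκ σ (by rwa [Set.uIcc_of_le hab.le] at hσ)
    have h2 : ∫ σ in a..b, φ σ ^ 2 * (kgeo h Φ U).secNum (c σ) (Ec σ p) (deriv c σ) = 0 := by
      rw [intervalIntegral.integral_congr (g := fun _ => (0 : ℝ)) (fun σ hσ => by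
        simp only
        rw [h1 σ hσ, RGeo.secNum_smul_left, RGeo.secNum_self]
        ring)]
      simp
    have h3 : ambQ 𝓜 h (γ a) (E a p) = κ ^ 2 := by
      rw [← L.G_frame hk p haI haI, h1 a Set.left_mem_uIcc]
      simp only [map_smul, smul_apply, smul_eq_mul]
      rw [kgeo_G_self, L.unit a haI]
      ring
    simp only
    rw [h2, h3, sub_zero]
  · intro Φa Φb Ua Ub βa βb ea eb
    obtain ⟨ra, Na, oa, za, ca, ra0, dra0, pa, acca⟩ := L.end_data hk haI (φ a) ea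
    obtain ⟨rb, Nb, ob, zb, cb, rb0, drb0, pb, accb⟩ := L.end_data hk hbI (φ b) eb
    have D : SvData (kgeo h Φ U) c (fun σ => φ σ • Ec σ) ra rb (Na ∩ Nb) s₀ s₁ a b :=
      { riem := hS, geod := L.geod, hX := hφ.contDiffOn.smul L.smooth, ht₀ := ha, hab := hab,
        ht₁ := hb, hN := oa.inter ob, h0 := ⟨za, zb⟩, hra := ca.mono Set.inter_subset_left,
        hrb := cb.mono Set.inter_subset_right, ra0 := ra0, rb0 := rb0, dra0 := dra0, drb0 := drb0 }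
    obtain ⟨N', oN', zN', sN', mU, cden, cEn⟩ := D.exists_nhds
    refine ⟨svEn (kgeo h Φ U) c (fun σ => φ σ • Ec σ) ra rb a b, N', oN', zN', cEn, ?_, ?_, ?_, ?_⟩
    · intro p hp
      have hnn : ∀ σ ∈ Set.Icc a b,
          0 ≤ svDen (kgeo h Φ U) c (fun σ => φ σ • Ec σ) ra rb a b (σ, p) :=
        fun σ hσ => hS.G_self_nonneg (mU p hp σ hσ) _
      refine ⟨intervalIntegral.integral_nonneg hab.le hnn, ?_⟩
      have hcurve : ContDiffOn ℝ 1 (fun s => svF c (fun σ => φ σ • Ec σ) ra rb a b (s, p))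
          (Set.Icc a b) := ((D.contDiffOn_svF_curve p).mono hsubI).of_le ENat.LEInfty.out
      have h1 := hdist_le_integral_param hk.toIsMetric L.hol hab.le hcurve (mU p hp)
      rw [svF_left hab, svF_right hab, pa p (sN' hp).1, pb p (sN' hp).2] at h1
      have h2 : ∫ t in a..b, Real.sqrt (qf (h Φ (svF c (fun σ => φ σ • Ec σ) ra rb a b (t, p)))
          (derivWithin (fun s => svF c (fun σ => φ σ • Ec σ) ra rb a b (s, p)) (Set.Icc a b) t :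
            CE ι)) =
          ∫ t in a..b, Real.sqrt (svDen (kgeo h Φ U) c (fun σ => φ σ • Ec σ) ra rb a b (t, p)) := by
        refine intervalIntegral.integral_congr fun t ht => ?_
        rw [Set.uIcc_of_le hab.le] at ht
        simp only
        rw [((D.hasDerivAt_svF (hsubI ht) p).hasDerivWithinAt).derivWithin
          (uniqueDiffOn_Icc hab t ht)]
        rfl
      rw [h2] at h1
      calc hdist 𝓜 h (Φa (βa p)) (Φb (βb p)) ^ 2 ≤ _ := pow_le_pow_left₀ (hdist_nonneg _ _ _ _) h1 2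
        _ ≤ _ := sv_sq_integral_sqrt_le hab.le (cden p hp) hnn
    · rw [D.svEn_zero, intervalIntegral.integral_congr (g := fun _ => (1 : ℝ)) (fun σ hσ => by
        simp only
        rw [kgeo_G_self, L.unit σ (hsub hσ)])]
      simp
    · intro p
      rw [D.fderiv_svEn, L.G_field hk _ p hbI, L.G_field hk _ p haI]
    · intro p
      have h1 : ∫ σ in a..b, ((kgeo h Φ U).G (c σ)
          ((kgeo h Φ U).covD c (fun s => (fun σ => φ σ • Ec σ) s p) σ)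
          ((kgeo h Φ U).covD c (fun s => (fun σ => φ σ • Ec σ) s p) σ) -
          (kgeo h Φ U).secNum (c σ) ((fun σ => φ σ • Ec σ) σ p) (deriv c σ)) =
          ∫ σ in a..b, (ambQ 𝓜 h (γ a) (E a p) * deriv φ σ ^ 2 -
            φ σ ^ 2 * (kgeo h Φ U).secNum (c σ) (Ec σ p) (deriv c σ)) := by
        refine intervalIntegral.integral_congr fun σ hσ => ?_
        simp only
        rw [L.covD_field hφ p (hsub hσ)]
        simp only [map_smul, smul_apply, smul_eq_mul]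
        rw [L.G_frame hk p (hsub hσ) haI, RGeo.secNum_smul_left]
        ring
      rw [D.fderiv2_svEn, h1, intervalIntegral.integral_sub (iφ.const_mul _) (isec p),
        intervalIntegral.integral_const_mul, acca, accb]

end loc
end local_

/-! ### 5. Concatenation (leaf `G5-CH-D`), and the main theorem

PLAN of `SvGood.trans`.  `𝓘 := 𝓘₁ + 𝓘₂`.  Clauses 1-3: additivity of interval integrals (`intervalIntegral.integral_add_adjacent_intervals`; `φ'²` is continuous),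
`ambQ (γ a) (E a p) = ambQ (γ m) (E m p)` (`IsParallelAlong.ambB_const`, `ambB_self`).  Clause 4: `exists_svEnd` at `γ m` with `X = φ m • E m` (tangent: second clause of `IsParallelAlong`,
`CMfd.tangent_smul`); `𝓔 := 𝓔₁ + 𝓔₂` on `N₁ ∩ N₂ ∩` (the sets of `SvEnd.eventually_mem`); `hdist_triangle` + `sv_sqrt_add_sq_le`; `fderiv_add` (twice). -/

section chain

/-- 2-jet of a sum. -/
theorem sv_fderiv2_add {f g : P → ℝ} {x : P} (hf : ContDiffAt ℝ 2 f x) (hg : ContDiffAt ℝ 2 g x) :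
    fderiv ℝ (fun p => f p + g p) x = fderiv ℝ f x + fderiv ℝ g x ∧
      fderiv ℝ (fderiv ℝ fun p => f p + g p) x =
        fderiv ℝ (fderiv ℝ f) x + fderiv ℝ (fderiv ℝ g) x := by
  have ef : ∀ᶠ y in 𝓝 x, DifferentiableAt ℝ f y :=
    (hf.eventually (by simp)).mono fun _ h => h.differentiableAt (by norm_num)
  have eg : ∀ᶠ y in 𝓝 x, DifferentiableAt ℝ g y :=
    (hg.eventually (by simp)).mono fun _ h => h.differentiableAt (by norm_num)
  have h1 : (fderiv ℝ fun p => f p + g p) =ᶠ[𝓝 x] fun y => fderiv ℝ f y + fderiv ℝ g y := by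
    filter_upwards [ef, eg] with y h1 h2
    exact fderiv_fun_add h1 h2
  refine ⟨h1.self_of_nhds, ?_⟩
  rw [h1.fderiv_eq]
  exact fderiv_fun_add ((hf.fderiv_right (m := 1) (by norm_num)).differentiableAt (by norm_num))
    ((hg.fderiv_right (m := 1) (by norm_num)).differentiableAt (by norm_num))

theorem SvGood.trans (hk : IsKahler 𝓜 h) (hconn : IsConnected 𝓜.carrier)
    (F : SvFrame 𝓜 h γ E j t₀ t₁) (hφ : ContDiff ℝ ∞ φ) {a m b : ℝ} (ha : t₀ < a) (ham : a < m)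
    (hmb : m < b) (hb : b < t₁) (h₁ : SvGood 𝓜 h γ E j φ a m) (h₂ : SvGood 𝓜 h γ E j φ m b) :
    SvGood 𝓜 h γ E j φ a b := by
  obtain ⟨I₁, i₁, s₁, k₁, e₁⟩ := h₁
  obtain ⟨I₂, i₂, s₂, k₂, e₂⟩ := h₂
  have hdφ : Continuous (fun σ => deriv φ σ ^ 2) := (hφ.continuous_deriv (by simp)).pow 2
  have iφ : ∀ x y, IntervalIntegrable (fun σ => deriv φ σ ^ 2) MeasureTheory.volume x y :=
    fun x y => hdφ.intervalIntegrable x y
  have haa : a ∈ Set.Ioo t₀ t₁ := ⟨ha, (ham.trans hmb).trans hb⟩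
  have hmm : m ∈ Set.Ioo t₀ t₁ := ⟨ha.trans ham, hmb.trans hb⟩
  have hQ : ∀ p, ambQ 𝓜 h (γ m) (E m p) = ambQ 𝓜 h (γ a) (E a p) := fun p => by
    rw [← ambB_self, ← ambB_self]
    exact (F.par p).ambB_const hk F.geod (F.par p) hmm haa
  refine ⟨fun p => I₁ p + I₂ p, fun p => (i₁ p).trans (i₂ p), fun p => ?_, fun p κ hκ => ?_, ?_⟩
  · rw [← intervalIntegral.integral_add_adjacent_intervals (iφ a m) (iφ m b),
      ← intervalIntegral.integral_add_adjacent_intervals (i₁ p) (i₂ p)]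
    have h1 := s₁ p
    have h2 := s₂ p
    rw [hQ] at h2
    simp only
    linear_combination h1 + h2
  · simp only
    rw [k₁ p κ (fun σ hσ => hκ σ ⟨hσ.1, hσ.2.trans hmb.le⟩),
      k₂ p κ (fun σ hσ => hκ σ ⟨ham.le.trans hσ.1, hσ.2⟩),
      ← intervalIntegral.integral_add_adjacent_intervals (iφ a m) (iφ m b), mul_add]
  · intro Φa Φb Ua Ub βa βb ea eb
    have hxm : γ m ∈ 𝓜.carrier := F.geod.2.1 m hmm
    obtain ⟨Φm, Um, βm, em⟩ := exists_svEnd hxm (φ m • E m) (fun p => by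
      simpa using CMfd.tangent_smul hxm ((F.par p).2.1 m hmm) (φ m))
    obtain ⟨𝓔₁, N₁, o₁, z₁, c₁, d₁, v₁, f₁, g₁⟩ := e₁ Φa Φm Ua Um βa βm ea em
    obtain ⟨𝓔₂, N₂, o₂, z₂, c₂, d₂, v₂, f₂, g₂⟩ := e₂ Φm Φb Um Ub βm βb em eb
    obtain ⟨Na, oa, za, ma⟩ := ea.eventually_mem
    obtain ⟨Nm, om, zm, mm⟩ := em.eventually_mem
    obtain ⟨Nb, ob, zb, mb⟩ := eb.eventually_mem
    have C₁ : ContDiffAt ℝ 2 𝓔₁ 0 := (c₁.contDiffAt (o₁.mem_nhds z₁)).of_le ENat.LEInfty.out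
    have C₂ : ContDiffAt ℝ 2 𝓔₂ 0 := (c₂.contDiffAt (o₂.mem_nhds z₂)).of_le ENat.LEInfty.out
    obtain ⟨j1, j2⟩ := sv_fderiv2_add C₁ C₂
    refine ⟨fun p => 𝓔₁ p + 𝓔₂ p, (N₁ ∩ N₂) ∩ (Na ∩ Nm ∩ Nb),
      (o₁.inter o₂).inter ((oa.inter om).inter ob), ⟨⟨z₁, z₂⟩, ⟨za, zm⟩, zb⟩,
      (c₁.mono fun p hp => hp.1.1).add (c₂.mono fun p hp => hp.1.2), ?_, ?_, ?_, ?_⟩
    · rintro p ⟨⟨p1, p2⟩, ⟨pa, pm⟩, pb⟩
      obtain ⟨n1, l1⟩ := d₁ p p1
      obtain ⟨n2, l2⟩ := d₂ p p2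
      refine ⟨add_nonneg n1 n2, ?_⟩
      have tri := hdist_triangle (h := h) hk.toIsMetric hconn (CMfd.mem_carrier ea.hol (ma p pa))
        (CMfd.mem_carrier em.hol (mm p pm)) (CMfd.mem_carrier eb.hol (mb p pb))
      have h3 := sv_sqrt_add_sq_le (sub_nonneg.2 ham.le) (sub_nonneg.2 hmb.le) n1 n2
        (hdist_nonneg 𝓜 h _ _) (hdist_nonneg 𝓜 h _ _) l1 l2
      have h4 : hdist 𝓜 h (Φa (βa p)) (Φb (βb p)) ^ 2 ≤
          (hdist 𝓜 h (Φa (βa p)) (Φm (βm p)) + hdist 𝓜 h (Φm (βm p)) (Φb (βb p))) ^ 2 :=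
        pow_le_pow_left₀ (hdist_nonneg 𝓜 h _ _) tri 2
      calc _ ≤ _ := h4
        _ ≤ _ := h3
        _ = _ := by ring
    · simp only [v₁, v₂]; ring
    · intro p
      rw [j1, add_apply, f₁, f₂]
      ring
    · intro p
      rw [j2, add_apply, add_apply, g₁, g₂]
      ring

/-- **main theorem of the file.** -/
theorem SvFrame.good (hk : IsKahler 𝓜 h) (hconn : IsConnected 𝓜.carrier)
    (F : SvFrame 𝓜 h γ E j t₀ t₁) (hφ : ContDiff ℝ ∞ φ) {a b : ℝ} (ha : t₀ < a) (hab : a < b)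
    (hb : b < t₁) : SvGood 𝓜 h γ E j φ a b := by
  refine sv_interval_induction (Q := SvGood 𝓜 h γ E j φ) hab ?_ ?_
  · intro t ht
    obtain ⟨δ, hδ, -, Φ, U, c, Ec, L⟩ :=
      F.exists_local hk (t := t) ⟨ha.trans_le ht.1, ht.2.trans_lt hb⟩
    exact ⟨δ, hδ, fun s s' h1 h2 h3 _ _ => L.good hk hφ h1 h2 h3⟩
  · intro s m s' h1 h2 h3 h4 g1 g2
    exact g1.trans hk hconn F hφ (ha.trans_le h1) h2 h3 (h4.trans_lt hb) g2

/-- finite sums of parallel fields are parallel. -/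
theorem sv_parallel_sum (hk : IsKahler 𝓜 h) (hγ : IsGeodesic 𝓜 h γ (Set.Ioo t₀ t₁)) {κ : Type}
    (s : Finset κ) (Z : κ → ℝ → V) (hZ : ∀ i, IsParallelAlong 𝓜 h γ (Z i) (Set.Ioo t₀ t₁)) :
    IsParallelAlong 𝓜 h γ (fun t => ∑ i ∈ s, Z i t) (Set.Ioo t₀ t₁) := by
  classical
  induction s using Finset.induction_on with
  | empty =>
    have h0 := (hγ.isParallelAlong_deriv hk).smul hk hγ 0
    simpa using h0
  | insert i s hi ih =>
    have h1 := (hZ i).add hk hγ ih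
    simpa [Finset.sum_insert hi] using h1

/-- construction of frames: PLAN.  Basis `b_i` of `P` (`Module.finBasis ℝ P`), `E_i` parallel with `E_i s = e (b_i)` (`exists_parallelAlong`),
`E σ := ∑ i, (coordinate i).smulRight (E_i σ)`.  `par`: finite sums (`IsParallelAlong.add/smul`, induction over the Finset; the zero field is `0 • E`).
`cplx`: both sides are parallel (`IsParallelAlong.ambJ`) and agree at `s`: `IsParallelAlong.eqOn`. -/
theorem exists_svFrame (hk : IsKahler 𝓜 h) (hγ : IsGeodesic 𝓜 h γ (Set.Ioo t₀ t₁))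
    (hu : ∀ σ ∈ Set.Ioo t₀ t₁, ambQ 𝓜 h (γ σ) (deriv γ σ) = 1) {s : ℝ} (hs : s ∈ Set.Ioo t₀ t₁)
    (e : P →L[ℝ] V) (he : ∀ p, e p ∈ 𝓜.tangent (γ s)) (j : P → P)
    (hj : ∀ p, e (j p) = ambJ 𝓜 (γ s) (e p)) :
    ∃ E : ℝ → P →L[ℝ] V, SvFrame 𝓜 h γ E j t₀ t₁ ∧ E s = e := by
  classical
  have hex := fun i => exists_parallelAlong hk hγ hs (he (Module.finBasis ℝ P i))
  choose Z hZ hZs using hex
  have happ : ∀ σ p, (∑ i, (LinearMap.toContinuousLinearMap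
      ((Module.finBasis ℝ P).coord i)).smulRight (Z i σ)) p =
      ∑ i, (Module.finBasis ℝ P).coord i p • Z i σ := by
    intro σ p
    simp
  have hpar : ∀ p, IsParallelAlong 𝓜 h γ (fun σ => (∑ i, (LinearMap.toContinuousLinearMap
      ((Module.finBasis ℝ P).coord i)).smulRight (Z i σ)) p) (Set.Ioo t₀ t₁) := by
    intro p
    simp only [happ]
    exact sv_parallel_sum hk hγ Finset.univ _ fun i => (hZ i).smul hk hγ _
  have hEs : (∑ i, (LinearMap.toContinuousLinearMap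
      ((Module.finBasis ℝ P).coord i)).smulRight (Z i s)) = e := by
    ext1 p
    rw [happ]
    simp only [hZs]
    conv_rhs => rw [← (Module.finBasis ℝ P).sum_repr p, map_sum]
    simp [Module.Basis.coord_apply]
  refine ⟨fun σ => ∑ i, (LinearMap.toContinuousLinearMap
    ((Module.finBasis ℝ P).coord i)).smulRight (Z i σ), ?_, hEs⟩
  refine
    { geod := hγ
      unit := hu
      smooth := ?_
      par := hpar
      cplx := fun σ hσ p => ?_ }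
  · refine ContDiffOn.sum fun i _ => ?_
    exact (ContinuousLinearMap.smulRightL ℝ P V (LinearMap.toContinuousLinearMap
      ((Module.finBasis ℝ P).coord i))).contDiff.comp_contDiffOn (hZ i).1
  · refine (hpar (j p)).eqOn hk hγ ((hpar p).ambJ hk hγ) hs ?_ hσ
    simp only [hEs]
    exact hj p

end chain

end Claimed.Agent.R316
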