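import Claimed.Agent.R316.Base.SV.Master
import Claimed.Agent.R316.CM.Normal

/-!
# Row 316, `BP-G5`, file 4: index inequality (`sv5`) and the moving ball (`sv4`)

Architect: helper154.  Input: `SvFrame.good` (`SV/Chain.lean`), the tools of `SV/Master.lean`.

## A. Index inequality (`sv5`)
`γ` minimizing from `x` to `y`, `φ` smooth, `φ 0 = φ l = 0`.  CONSTANT end data: `hdist x y² = l² ≤ l 𝓔 p`, `𝓔 0 = l`: `0` is a local minimum of `𝓔`, so `2 𝓘 p = D²𝓔(0)(p,p) ≥ 0` (`sv_index`).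
Frame: normal coordinates `Φ` at `x` with `h Φ 0 = 1` and `dΦ(0) e_{i₀} = γ'(0)` (`exists_normal_coords_dir`), `P = CE ι`, `E 0 = dΦ(0)`.  Then `E σ e_a` is a unitary frame at `γ σ`,
`E σ e_{i₀} = γ' σ`, `∑_a bisec(E σ e_a, γ') = Ric(γ', γ')` (`sv_sum_ambBisec`), and
`0 ≤ ∑_a (𝓘 e_a + 𝓘 (I e_a)) - 𝓘 e_{i₀} = 2n ∫φ'² - 2 ∫ φ² Ric - ∫ φ'²`.
`C¹` functions `φ`: approximation by smooth functions in `C¹([0,l])` (`sv_exists_approx`), passage to the limit.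

## B. Moving ball (`sv4`)
`P = ℂ`, `j a = I a`, `E 0 a = dΦ(z₀)(a v)`, `φ = 1`; `v' := coVec Ψ w₀ (E l 1)`; end data `a ↦ z₀ + a v`, `a ↦ w₀ + a v' + a² q`.  With `⟪τ,u⟫ = τᴴ H u`, `τ₀, τ_l` the coordinates of `γ' 0`, `γ' l`:
`D𝓔_q(0) = 0`, `D²𝓔_q(0)(a,a) = 2 𝓘 a + 2 Re (a² ⟪τ_l, 2q + Γ(v',v')⟫) - 2 Re (a² ⟪τ₀, Γ(v,v)⟫)`.  The case `q = 0` shows that `a ↦ 2 𝓘 a` is a real quadratic form on `ℂ` plus `Re (κ a²)`, hence
`2 𝓘 a = c₀ |a|² + Re (κ₁ a²)` (`sv_quadform_complex`); `𝓘 a + 𝓘 (I a) = c₀ |a|² = -2 ∫ bisec(E a, γ')`, so `c₀ = -2 ∫ bisec(E 1, γ') < 0` if `v ≠ 0`.  Choose `q = λ τ_l` with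
`κ₁ + 4 λ + 2 ⟪τ_l, Γ(v',v')⟫ - 2 ⟪τ₀, Γ(v,v)⟫ = 0` (`⟪τ_l, τ_l⟫ = 1`): `D²𝓔_q(0)(a,a) = c₀ |a|²`, `sv_le_of_hessian_neg`: `𝓔_q a ≤ l` near `0`, `hdist² ≤ l 𝓔_q a ≤ l²`.  (`v = 0`: `v' = q = 0`.)

LEAVES: `G5-I-A` (section 1), `G5-I-B` (section 2), `G5-I-C` (section 3), `G5-I-D` (section 4).
-/

set_option autoImplicit false
set_option linter.unusedSectionVars false
set_option linter.unusedVariables false
open scoped ContDiff ComplexOrder Topology Matrix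

namespace Claimed.Agent.R316

variable {V : Type} [NormedAddCommGroup V] [NormedSpace ℝ V] [FiniteDimensional ℝ V]
variable {ι : Type} [Fintype ι] [DecidableEq ι]
variable {P : Type} [NormedAddCommGroup P] [NormedSpace ℝ P] [FiniteDimensional ℝ P]
variable {𝓜 : CMfd V ι} {h : HFam V ι}

/-! ### 1. The index form of a minimizing geodesic is nonnegative; unitary frames and Ricci (leaf `G5-I-A`)

PLANS.  `sv_index`: `SvFrame.good` on `[0,l]`; end data `svEnd_const` in `𝓜.pΦ x`, `𝓜.pΦ y` (rewrite `φ 0 • E 0 = 0`, `φ l • E l = 0`); `svAcc_const`, `ambB … 0 = 0` (`sv_ambB_smul_right` with `r = 0`, or unfold); on `N`: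
`l² = hdist x y² ≤ l 𝓔 p`, so `𝓔 0 = l ≤ 𝓔 p`; `sv_hessian_nonneg`.
`sv_sum_ambBisec`: `Φ = 𝓜.pΦ x`, `z = 𝓜.co x`, `H = h Φ z`, `M` the matrix with columns `coVec (u a)`; `(Mᴴ H M) a b = ⟪u a, u b⟫` has real part `ambB (u a) (u b)` and imaginary part
`- ambB (u a) (J (u b))`; so `Mᴴ H M = 1`; `qf_ricF_eq_sum_bisec`, `bisec_symm` (`CM/Curv.lean`); definitions of `ambBisec`, `ambQ`. -/

section index

variable {γ : ℝ → V} {x y : V} {l : ℝ} {E : ℝ → P →L[ℝ] V} {j : P → P} {ε : ℝ} {φ : ℝ → ℝ}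

theorem sv_index (hk : IsKahler 𝓜 h) (hconn : IsConnected 𝓜.carrier) (hγ : IsMinGeod 𝓜 h γ x y l)
    (hl : 0 < l) (hε : 0 < ε) (F : SvFrame 𝓜 h γ E j (-ε) (l + ε)) (hφ : ContDiff ℝ ∞ φ) (h0 : φ 0 = 0)
    (h1 : φ l = 0) :
    ∃ 𝓘 : P → ℝ, (∀ p, 0 ≤ 𝓘 p) ∧
      (∀ p, 𝓘 p + 𝓘 (j p) = 2 * (ambQ 𝓜 h (γ 0) (E 0 p) * ∫ σ in (0 : ℝ)..l, deriv φ σ ^ 2) -
        2 * ∫ σ in (0 : ℝ)..l, φ σ ^ 2 * ambBisec 𝓜 h (γ σ) (E σ p) (deriv γ σ)) ∧
      ∀ (p : P) (κ : ℝ), (∀ σ ∈ Set.Icc 0 l, E σ p = κ • deriv γ σ) →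
        𝓘 p = κ ^ 2 * ∫ σ in (0 : ℝ)..l, deriv φ σ ^ 2 := by
  obtain ⟨𝓘, -, hsum, htan, hend⟩ := F.good hk hconn hφ (a := 0) (b := l) (by linarith) hl
    (by linarith)
  refine ⟨𝓘, fun p => ?_, hsum, htan⟩
  have hm := hk.toIsHForm
  have hγ0 : γ 0 = x := hγ.2.1
  have hγl : γ l = y := hγ.2.2.1
  have hx : x ∈ 𝓜.carrier := hγ0 ▸ hγ.mem_carrier ⟨le_rfl, hl.le⟩
  have hy : y ∈ 𝓜.carrier := hγl ▸ hγ.mem_carrier ⟨hl.le, le_rfl⟩
  have ea : SvEnd 𝓜 (𝓜.pΦ x) (𝓜.pU x) (fun _ : P => 𝓜.co x) (γ 0) (φ 0 • E 0) := by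
    have := svEnd_const (P := P) (𝓜.isHol_pΦ hx) (𝓜.co_mem hx)
    rw [𝓜.pΦ_co hx] at this
    simpa [hγ0, h0] using this
  have eb : SvEnd 𝓜 (𝓜.pΦ y) (𝓜.pU y) (fun _ : P => 𝓜.co y) (γ l) (φ l • E l) := by
    have := svEnd_const (P := P) (𝓜.isHol_pΦ hy) (𝓜.co_mem hy)
    rw [𝓜.pΦ_co hy] at this
    simpa [hγl, h1] using this
  obtain ⟨𝓔, N, hN, h0N, h𝓔, hle, h𝓔0, -, hd2⟩ := hend _ _ _ _ _ _ ea eb
  have hmin : ∀ᶠ q in 𝓝 (0 : P), 𝓔 0 ≤ 𝓔 q := by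
    filter_upwards [hN.mem_nhds h0N] with q hq
    have h2 := (hle q hq).2
    rw [𝓜.pΦ_co hx, 𝓜.pΦ_co hy, ← hγ.2.2.2.1, sub_zero] at h2
    rw [h𝓔0, sub_zero]
    nlinarith
  have h3 := sv_hessian_nonneg hN h0N h𝓔 hmin p
  rw [hd2, svAcc_const, svAcc_const, hγ0, hγl, sv_ambB_zero_right hm hx,
    sv_ambB_zero_right hm hy] at h3
  linarith

/-- the Ricci curvature as a sum of bisectional curvatures over a unitary frame of ambient tangent vectors. -/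
theorem sv_sum_ambBisec (hk : IsKahler 𝓜 h) {x : V} (hx : x ∈ 𝓜.carrier) {u : ι → V}
    (hu : ∀ a, u a ∈ 𝓜.tangent x)
    (h1 : ∀ a b, ambB 𝓜 h x (u a) (u b) = if a = b then 1 else 0)
    (h2 : ∀ a b, ambB 𝓜 h x (u a) (ambJ 𝓜 x (u b)) = 0) {T : V} (hT : T ∈ 𝓜.tangent x) :
    ∑ a, ambBisec 𝓜 h x (u a) T = ambQ 𝓜 (ricF h) x T := by
  have hΦ := 𝓜.isHol_pΦ hx
  have hz := 𝓜.co_mem hx
  have hM : (Matrix.of fun l a => coVec (𝓜.pΦ x) (𝓜.co x) (u a) l)ᴴ * h (𝓜.pΦ x) (𝓜.co x) *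
      (Matrix.of fun l a => coVec (𝓜.pΦ x) (𝓜.co x) (u a) l) = 1 := by
    ext a b
    have e1 : ((Matrix.of fun l a => coVec (𝓜.pΦ x) (𝓜.co x) (u a) l)ᴴ * h (𝓜.pΦ x) (𝓜.co x) *
        (Matrix.of fun l a => coVec (𝓜.pΦ x) (𝓜.co x) (u a) l)) a b =
        star (coVec (𝓜.pΦ x) (𝓜.co x) (u a) : ι → ℂ) ⬝ᵥ
          (h (𝓜.pΦ x) (𝓜.co x)).mulVec (coVec (𝓜.pΦ x) (𝓜.co x) (u b) : ι → ℂ) := by
      rw [Matrix.mul_assoc, Matrix.mul_apply]
      simp only [dotProduct, Matrix.mulVec, Matrix.conjTranspose_apply, Matrix.of_apply,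
        Matrix.mul_apply, Pi.star_apply]
    rw [e1, herm_eq_reForm, reForm_I_left]
    have e2 : reForm (h (𝓜.pΦ x) (𝓜.co x)) (coVec (𝓜.pΦ x) (𝓜.co x) (u a))
        (coVec (𝓜.pΦ x) (𝓜.co x) (u b)) = if a = b then 1 else 0 := h1 a b
    have e3 : reForm (h (𝓜.pΦ x) (𝓜.co x)) (coVec (𝓜.pΦ x) (𝓜.co x) (u a))
        (Complex.I • coVec (𝓜.pΦ x) (𝓜.co x) (u b)) = 0 := by
      have := h2 a b
      unfold ambB at this
      rwa [sv_coVec_ambJ hx] at this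
    rw [e2, e3, Matrix.one_apply]
    split_ifs <;> simp
  have h3 := qf_ricF_eq_sum_bisec hk hΦ hz _ hM (coVec (𝓜.pΦ x) (𝓜.co x) T)
  unfold ambQ
  rw [h3]
  refine Finset.sum_congr rfl fun a _ => ?_
  unfold ambBisec
  rw [bisec_symm hk hΦ hz]
  rfl

end index

/-! ### 2. `sv5` for smooth `φ` (leaf `G5-I-B`)

PLAN.  `ι` is nonempty (otherwise `ambQ … = 0 ≠ 1`, `IsMinGeod.ambQ_eq_one`); `i₀ : ι`.  `ε`, unit speed from `sv_exists_unit`.  `Ψ = 𝓜.pΦ x`, `w = 𝓜.co x`, `v = coVec Ψ w (γ' 0)`, `qf (h Ψ w) v = 1`;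
`exists_normal_coords_dir` gives `Φ`, `Φ 0 = x`, `h Φ 0 = 1`, `jac τ 0 *ᵥ e_{i₀} = v`, hence `dΦ(0) (eb i₀) = dΨ(w) v = γ' 0` (`CMfd.fderiv_eq_comp_trans`, `jac_mulVec`).
`exists_svFrame` with `s = 0`, `e = fderiv ℝ Φ 0`, `j p = I • p` (`ambJ_param`).  Unitarity at `σ`: `IsParallelAlong.ambB_const` for the fields `E · (eb a)`, `E · (eb b)`, `E · (I • eb b)`, values at `0` by
`ambB_param` and `h Φ 0 = 1`.  `E σ (eb i₀) = γ' σ`: `SvFrame.eqOn_of_parallel` with `IsGeodesic.isParallelAlong_deriv`.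
Sum of `sv_index` over `a`; `∑ ∫ = ∫ ∑` (`intervalIntegral.integral_finset_sum`, integrability from `sv_continuousOn_ambBisec_along`); `sv_sum_ambBisec`. -/

section smooth

/-- a unit vector is the `i₀`-th column of a unitary frame of a positive definite Hermitian matrix. -/
theorem sv_exists_unitary_dir {H : Matrix ι ι ℂ} (hH : H.PosDef) {v : ι → ℂ} (hv : qf H v = 1)
    (i₀ : ι) : ∃ T : Matrix ι ι ℂ, Tᴴ * H * T = 1 ∧ T *ᵥ (Pi.single i₀ 1) = v := by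
  obtain ⟨R, hR, hRR⟩ := exists_sqrt_posDef hH
  have hRdet : R.det ≠ 0 := hR.det_pos.ne'
  have hRu : IsUnit R.det := isUnit_iff_ne_zero.2 hRdet
  have hRH : Rᴴ = R := hR.isHermitian.eq
  -- the unit vector `w = R v`
  have hw : ‖(WithLp.toLp 2 (R *ᵥ v) : EuclideanSpace ℂ ι)‖ = 1 := by
    have h1 : (inner ℂ (WithLp.toLp 2 (R *ᵥ v) : EuclideanSpace ℂ ι) (WithLp.toLp 2 (R *ᵥ v))) =
        star v ⬝ᵥ (H *ᵥ v) := by
      rw [EuclideanSpace.inner_toLp_toLp, dotProduct_comm, Matrix.star_mulVec, hRH,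
        ← Matrix.dotProduct_mulVec, Matrix.mulVec_mulVec, hRR]
    have h2 : ‖(WithLp.toLp 2 (R *ᵥ v) : EuclideanSpace ℂ ι)‖ ^ 2 = 1 := by
      rw [← hv, qf, ← h1, ← inner_self_eq_norm_sq (𝕜 := ℂ)]
      rfl
    nlinarith [norm_nonneg (WithLp.toLp 2 (R *ᵥ v) : EuclideanSpace ℂ ι)]
  have hon : Orthonormal ℂ (({i₀} : Set ι).domRestrict
      fun _ : ι => (WithLp.toLp 2 (R *ᵥ v) : EuclideanSpace ℂ ι)) := by
    constructor
    · intro i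
      exact hw
    · intro i j hij
      exact absurd (Subtype.ext (i.2.trans j.2.symm)) hij
  obtain ⟨b, hb⟩ := hon.exists_orthonormalBasis_extension_of_card_eq (by simp)
  have hb0 : b i₀ = WithLp.toLp 2 (R *ᵥ v) := hb i₀ rfl
  have hQ : (Matrix.of fun l a => b a l)ᴴ * (Matrix.of fun l a => b a l) = 1 := by
    ext a c
    have h1 := orthonormal_iff_ite.1 b.orthonormal a c
    rw [EuclideanSpace.inner_eq_star_dotProduct] at h1
    rw [Matrix.mul_apply, Matrix.one_apply, ← h1]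
    simp only [dotProduct, Matrix.conjTranspose_apply, Matrix.of_apply, Pi.star_apply]
    exact Finset.sum_congr rfl fun l _ => mul_comm _ _
  refine ⟨R⁻¹ * Matrix.of fun l a => b a l, ?_, ?_⟩
  · have hRi : (R⁻¹)ᴴ = R⁻¹ := by rw [Matrix.conjTranspose_nonsing_inv, hRH]
    calc (R⁻¹ * Matrix.of fun l a => b a l)ᴴ * H * (R⁻¹ * Matrix.of fun l a => b a l)
        = (Matrix.of fun l a => b a l)ᴴ * ((R⁻¹ * R) * (R * R⁻¹)) *
            (Matrix.of fun l a => b a l) := by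
          rw [Matrix.conjTranspose_mul, hRi, ← hRR]
          simp only [Matrix.mul_assoc]
      _ = 1 := by
          rw [Matrix.nonsing_inv_mul _ hRu, Matrix.mul_nonsing_inv _ hRu, Matrix.one_mul,
            Matrix.mul_one, hQ]
  · rw [← Matrix.mulVec_mulVec]
    have h1 : (Matrix.of fun l a => b a l) *ᵥ (Pi.single i₀ 1) = R *ᵥ v := by
      funext l
      simp [Matrix.mulVec, dotProduct, Pi.single_apply, hb0]
    rw [h1, Matrix.mulVec_mulVec, Matrix.nonsing_inv_mul _ hRu, Matrix.one_mulVec]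

/-- a complex matrix as a real continuous linear map of `CE ι`. -/
noncomputable def svMat (T : Matrix ι ι ℂ) : CE ι →L[ℝ] CE ι :=
  LinearMap.toContinuousLinearMap ((Matrix.toLpLin 2 2 T).restrictScalars ℝ)

theorem svMat_apply (T : Matrix ι ι ℂ) (p : CE ι) : svMat T p = WithLp.toLp 2 (T *ᵥ p.ofLp) := rfl

theorem svMat_smul (T : Matrix ι ι ℂ) (c : ℂ) (p : CE ι) : svMat T (c • p) = c • svMat T p :=
  (Matrix.toLpLin 2 2 T).map_smul c p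

theorem sv_reForm_svMat {H T : Matrix ι ι ℂ} (hT : Tᴴ * H * T = 1) (p q : CE ι) :
    reForm H (svMat T p) (svMat T q) = (star (p : ι → ℂ) ⬝ᵥ (q : ι → ℂ)).re := by
  unfold reForm
  simp only [svMat_apply]
  rw [Matrix.star_mulVec, ← Matrix.dotProduct_mulVec, Matrix.mulVec_mulVec, Matrix.mulVec_mulVec,
    hT, Matrix.one_mulVec]

theorem sv_reForm_eb {H T : Matrix ι ι ℂ} (hT : Tᴴ * H * T = 1) (a b : ι) :
    reForm H (svMat T (eb a)) (svMat T (eb b)) = if a = b then 1 else 0 := by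
  rw [sv_reForm_svMat hT]
  by_cases hab : a = b
  · subst hab
    simp [eb]
  · simp [eb, hab]

theorem sv_reForm_eb_I {H T : Matrix ι ι ℂ} (hT : Tᴴ * H * T = 1) (a b : ι) :
    reForm H (svMat T (eb a)) (svMat T (Complex.I • eb b)) = 0 := by
  rw [sv_reForm_svMat hT]
  by_cases hab : a = b
  · subst hab
    simp [eb]
  · simp [eb, hab]

theorem sv5_smooth (hk : IsKahler 𝓜 h) (hconn : IsConnected 𝓜.carrier) {γ : ℝ → V} {x y : V} {l : ℝ}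
    (hγ : IsMinGeod 𝓜 h γ x y l) (hl : 0 < l) {φ : ℝ → ℝ} (hφ : ContDiff ℝ ∞ φ) (h0 : φ 0 = 0)
    (h1 : φ l = 0) :
    2 * ∫ σ in (0 : ℝ)..l, φ σ ^ 2 * ambQ 𝓜 (ricF h) (γ σ) (deriv γ σ) ≤
      (2 * (Fintype.card ι : ℝ) - 1) * ∫ σ in (0 : ℝ)..l, deriv φ σ ^ 2 := by
  obtain ⟨ε, hε, hg, hu⟩ := sv_exists_unit hk hγ hl
  have hm := hk.toIsHForm
  have hγ0 : γ 0 = x := hγ.2.1
  have h0I : (0 : ℝ) ∈ Set.Ioo (-ε) (l + ε) := ⟨by linarith, by linarith⟩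
  have h0c : (0 : ℝ) ∈ Set.Icc 0 l := ⟨le_rfl, hl.le⟩
  have hsub : Set.Icc 0 l ⊆ Set.Ioo (-ε) (l + ε) := fun σ hσ =>
    ⟨by linarith [hσ.1], by linarith [hσ.2]⟩
  have hx : x ∈ 𝓜.carrier := hγ0 ▸ hγ.mem_carrier h0c
  have hΦ := 𝓜.isHol_pΦ hx
  have hz := 𝓜.co_mem hx
  have hxe := 𝓜.pΦ_co hx
  have htan : deriv γ 0 ∈ 𝓜.tangent x := hγ0 ▸ hγ.deriv_mem_tangent h0c
  obtain ⟨v, hv⟩ := htan
  have hv1 : qf (h (𝓜.pΦ x) (𝓜.co x)) v = 1 := by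
    have e1 := ambQ_param hm hΦ hz v
    have e2 := hγ.ambQ_eq_one hk hl h0c
    rw [hγ0] at e2
    rw [hv, hxe, e2] at e1
    exact e1.symm
  have hne : Nonempty ι := by
    by_contra hemp
    rw [not_nonempty_iff] at hemp
    have : qf (h (𝓜.pΦ x) (𝓜.co x)) v = 0 := by simp [qf, dotProduct]
    rw [this] at hv1
    exact zero_ne_one hv1
  obtain ⟨i₀⟩ := hne
  obtain ⟨T, hT, hTv⟩ := sv_exists_unitary_dir (hk.posDef hΦ _ hz) hv1 i₀
  obtain ⟨E, F, hE0⟩ := exists_svFrame hk hg hu h0I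
    ((fderiv ℝ (𝓜.pΦ x) (𝓜.co x)).comp (svMat T))
    (fun p => by rw [hγ0]; exact ⟨_, rfl⟩) (fun p => Complex.I • p) (fun p => by
      have := ambJ_param hΦ hz (svMat T p)
      rw [hxe] at this
      rw [hγ0, ContinuousLinearMap.comp_apply, ContinuousLinearMap.comp_apply, this, svMat_smul])
  obtain ⟨𝓘, hpos, hsum, htang⟩ := sv_index hk hconn hγ hl hε F hφ h0 h1
  -- values of the metric on the frame
  have hB0 : ∀ p q : CE ι, ambB 𝓜 h (γ 0) (E 0 p) (E 0 q) =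
      reForm (h (𝓜.pΦ x) (𝓜.co x)) (svMat T p) (svMat T q) := by
    intro p q
    rw [hE0, hγ0]
    have := ambB_param hm hΦ hz (svMat T p) (svMat T q)
    rwa [hxe] at this
  have hB : ∀ σ ∈ Set.Icc 0 l, ∀ p q : CE ι, ambB 𝓜 h (γ σ) (E σ p) (E σ q) =
      reForm (h (𝓜.pΦ x) (𝓜.co x)) (svMat T p) (svMat T q) := by
    intro σ hσ p q
    rw [← hB0]
    exact (F.par p).ambB_const hk hg (F.par q) (hsub hσ) h0I
  -- the tangential direction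
  have hEi : ∀ σ ∈ Set.Icc 0 l, E σ (eb i₀) = (1 : ℝ) • deriv γ σ := by
    intro σ hσ
    have h2 := F.eqOn_of_parallel hk (hg.isParallelAlong_deriv hk) h0I h0I (p := eb i₀) (by
      rw [hE0, ContinuousLinearMap.comp_apply, ← hv]
      congr 1
      rw [svMat_apply]
      have : (eb i₀ : CE ι).ofLp = Pi.single i₀ 1 := by
        funext k
        simp [eb, Pi.single_apply]
      rw [this, hTv]) (x := σ) ⟨hsub hσ, hsub hσ⟩
    rw [one_smul]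
    exact h2
  have hti := htang (eb i₀) 1 hEi
  -- the Ricci curvature
  have hric : ∀ σ ∈ Set.Icc 0 l, ∑ a, ambBisec 𝓜 h (γ σ) (E σ (eb a)) (deriv γ σ) =
      ambQ 𝓜 (ricF h) (γ σ) (deriv γ σ) := by
    intro σ hσ
    refine sv_sum_ambBisec hk (hγ.mem_carrier hσ) (fun a => F.mem_tangent (hsub hσ) _)
      (fun a b => ?_) (fun a b => ?_) (hγ.deriv_mem_tangent hσ)
    · rw [hB σ hσ, sv_reForm_eb hT]
    · rw [← F.cplx σ (hsub hσ), hB σ hσ, sv_reForm_eb_I hT]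
  have hint : ∀ a : ι, IntervalIntegrable
      (fun σ => φ σ ^ 2 * ambBisec 𝓜 h (γ σ) (E σ (eb a)) (deriv γ σ)) MeasureTheory.volume 0 l := by
    intro a
    apply ContinuousOn.intervalIntegrable
    rw [Set.uIcc_of_le hl.le]
    exact (hφ.continuous.pow 2).continuousOn.mul
      ((sv_continuousOn_ambBisec_along hk hg (F.par (eb a))).mono hsub)
  have hsumI : ∑ a, ∫ σ in (0 : ℝ)..l, φ σ ^ 2 * ambBisec 𝓜 h (γ σ) (E σ (eb a)) (deriv γ σ) =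
      ∫ σ in (0 : ℝ)..l, φ σ ^ 2 * ambQ 𝓜 (ricF h) (γ σ) (deriv γ σ) := by
    rw [← intervalIntegral.integral_finsetSum fun a _ => hint a]
    refine intervalIntegral.integral_congr fun σ hσ => ?_
    rw [Set.uIcc_of_le hl.le] at hσ
    rw [← Finset.mul_sum, hric σ hσ]
  have hQa : ∀ a : ι, ambQ 𝓜 h (γ 0) (E 0 (eb a)) = 1 := by
    intro a
    rw [← ambB_self, hB0, sv_reForm_eb hT, if_pos rfl]
  have htot : ∑ a, (𝓘 (eb a) + 𝓘 (Complex.I • eb a)) =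
      2 * (Fintype.card ι : ℝ) * (∫ σ in (0 : ℝ)..l, deriv φ σ ^ 2) -
        2 * ∫ σ in (0 : ℝ)..l, φ σ ^ 2 * ambQ 𝓜 (ricF h) (γ σ) (deriv γ σ) := by
    rw [← hsumI, Finset.mul_sum, Finset.sum_congr rfl fun a _ => hsum (eb a)]
    simp only [hQa, one_mul]
    rw [Finset.sum_sub_distrib]
    simp
    ring
  have hge : 𝓘 (eb i₀) ≤ ∑ a, (𝓘 (eb a) + 𝓘 (Complex.I • eb a)) :=
    (le_add_of_nonneg_right (hpos _)).trans
      (Finset.single_le_sum (f := fun a => 𝓘 (eb a) + 𝓘 (Complex.I • eb a))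
        (fun a _ => add_nonneg (hpos _) (hpos _)) (Finset.mem_univ i₀))
  rw [htot, hti] at hge
  linarith

/-- continuity of the Ricci term along a geodesic. -/
theorem sv_continuousOn_ric_along (hk : IsKahler 𝓜 h) {γ : ℝ → V} {t₀ t₁ : ℝ}
    (hγ : IsGeodesic 𝓜 h γ (Set.Ioo t₀ t₁)) :
    ContinuousOn (fun σ => ambQ 𝓜 (ricF h) (γ σ) (deriv γ σ)) (Set.Ioo t₀ t₁) := by
  intro t ht
  obtain ⟨δ, hδ, hI, Φ, U, O, ρ, hΦ, hO, hρ, hc, hgeod, hvel, -⟩ := sv_local_rep hγ ht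
  have hR := isHForm_ricF hk.toIsMetric
  have d1 : ContDiffOn ℝ ∞ (deriv fun σ => ρ (γ σ)) (Set.Ioo (t - δ) (t + δ)) :=
    hgeod.1.deriv_of_isOpen isOpen_Ioo (by simp)
  have htI : t ∈ Set.Ioo (t - δ) (t + δ) := ⟨by linarith, by linarith⟩
  have h1 : ContDiffOn ℝ ∞ (fun σ => qf (ricF h Φ (ρ (γ σ)))
      (fun j => deriv (fun σ => ρ (γ σ)) σ j)) (Set.Ioo (t - δ) (t + δ)) :=
    contDiffOn_qf (fun j k => (hR.smooth hΦ j k).comp hgeod.1 fun σ hσ => (hc σ hσ).2.1)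
      (fun j => (EuclideanSpace.proj (𝕜 := ℂ) j).restrictScalars ℝ |>.contDiff.comp_contDiffOn d1)
  refine ((h1.continuousOn.continuousAt (isOpen_Ioo.mem_nhds htI)).congr ?_).continuousWithinAt
  filter_upwards [isOpen_Ioo.mem_nhds htI] with σ hσ
  have h2 := ambQ_param hR hΦ (hc σ hσ).2.1 (deriv (fun σ => ρ (γ σ)) σ)
  rw [hvel σ hσ, (hc σ hσ).2.2] at h2
  exact h2.symm

end smooth

/-! ### 3. Approximation of `C¹` functions (leaf `G5-I-C`; Mathlib only)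

PLAN.  `deriv φ` is continuous; `exists_polynomial_near_of_continuousOn` gives polynomials `q_n` with `|q_n - φ'| < 1/(n+1)` on `[0,l]`; `ψ_n σ := ∫₀^σ q_n - (σ/l) ∫₀ˡ q_n` is smooth
(`contDiff_infty_iff_deriv`, `Continuous.deriv_integral`), vanishes at `0`, `l`; `ψ_n' - φ' = (q_n - φ') - (1/l) ∫₀ˡ (q_n - φ')` (as `∫₀ˡ φ' = φ l - φ 0 = 0`), so `|ψ_n' - φ'| ≤ 2/(n+1)` and
`|ψ_n - φ| ≤ 2l/(n+1)` on `[0,l]`.  `sv_limit`: `|∫ (ψ² - φ²) R| ≤ l sup|ψ - φ| sup|ψ + φ| sup|R|`; or `intervalIntegral.tendsto_integral_filter_of_dominated_convergence`. -/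

section approx

theorem sv_exists_approx {l : ℝ} (hl : 0 < l) {φ : ℝ → ℝ} (hφ : ContDiff ℝ 1 φ) (h0 : φ 0 = 0)
    (h1 : φ l = 0) :
    ∃ ψ : ℕ → ℝ → ℝ, (∀ n, ContDiff ℝ ∞ (ψ n)) ∧ (∀ n, ψ n 0 = 0) ∧ (∀ n, ψ n l = 0) ∧
      (∀ n, ∀ σ ∈ Set.Icc 0 l, |ψ n σ - φ σ| ≤ 2 * l / (n + 1)) ∧
      ∀ n, ∀ σ ∈ Set.Icc 0 l, |deriv (ψ n) σ - deriv φ σ| ≤ 2 / (n + 1) := by
  have hdφ : Continuous (deriv φ) := hφ.continuous_deriv le_rfl
  have hφd : Differentiable ℝ φ := hφ.differentiable (by norm_num)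
  have hex : ∀ n : ℕ, ∃ q : Polynomial ℝ, ∀ σ ∈ Set.Icc 0 l,
      |q.eval σ - deriv φ σ| < 1 / ((n : ℝ) + 1) := fun n =>
    exists_polynomial_near_of_continuousOn 0 l _ hdφ.continuousOn _ (by positivity)
  choose q hq using hex
  have hqc : ∀ n, Continuous fun σ => (q n).eval σ := fun n => (q n).continuous
  have hQd : ∀ n σ, HasDerivAt (fun σ => ∫ t in (0 : ℝ)..σ, (q n).eval t) ((q n).eval σ) σ :=
    fun n σ => intervalIntegral.integral_hasDerivAt_right ((hqc n).intervalIntegrable _ _)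
      ((hqc n).stronglyMeasurableAtFilter _ _) (hqc n).continuousAt
  have hQs : ∀ n, ContDiff ℝ ∞ (fun σ => ∫ t in (0 : ℝ)..σ, (q n).eval t) := by
    intro n
    rw [contDiff_infty_iff_deriv]
    refine ⟨fun σ => (hQd n σ).differentiableAt, ?_⟩
    have : deriv (fun σ => ∫ t in (0 : ℝ)..σ, (q n).eval t) = fun σ => (q n).eval σ :=
      funext fun σ => (hQd n σ).deriv
    rw [this]
    simpa using (q n).contDiff_aeval (𝕜 := ℝ) ∞
  have hQl : ∀ n, |∫ t in (0 : ℝ)..l, (q n).eval t| ≤ l / ((n : ℝ) + 1) := by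
    intro n
    have e1 : ∫ t in (0 : ℝ)..l, deriv φ t = 0 := by
      rw [intervalIntegral.integral_deriv_eq_sub (fun x _ => hφd x) (hdφ.intervalIntegrable _ _),
        h0, h1, sub_zero]
    have e2 : ∫ t in (0 : ℝ)..l, (q n).eval t = ∫ t in (0 : ℝ)..l, ((q n).eval t - deriv φ t) := by
      rw [intervalIntegral.integral_sub ((hqc n).intervalIntegrable _ _)
        (hdφ.intervalIntegrable _ _), e1, sub_zero]
    rw [e2]
    have h2 := intervalIntegral.norm_integral_le_of_norm_le_const (a := (0 : ℝ)) (b := l)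
      (f := fun t => (q n).eval t - deriv φ t) (C := 1 / ((n : ℝ) + 1)) (fun t ht => by
        rw [Set.uIoc_of_le hl.le] at ht
        exact (hq n t ⟨ht.1.le, ht.2⟩).le)
    rw [sub_zero, abs_of_pos hl, Real.norm_eq_abs] at h2
    calc _ ≤ _ := h2
      _ = _ := by ring
  have hψd : ∀ n σ, HasDerivAt
      (fun σ => (∫ t in (0 : ℝ)..σ, (q n).eval t) - σ / l * ∫ t in (0 : ℝ)..l, (q n).eval t)
      ((q n).eval σ - 1 / l * ∫ t in (0 : ℝ)..l, (q n).eval t) σ := fun n σ =>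
    (hQd n σ).sub (((hasDerivAt_id σ).div_const l).mul_const _)
  have hder : ∀ n, ∀ σ ∈ Set.Icc 0 l, |((q n).eval σ - 1 / l * ∫ t in (0 : ℝ)..l, (q n).eval t) -
      deriv φ σ| ≤ 2 / ((n : ℝ) + 1) := by
    intro n σ hσ
    have a1 := (hq n σ hσ).le
    have a2 : |1 / l * ∫ t in (0 : ℝ)..l, (q n).eval t| ≤ 1 / ((n : ℝ) + 1) := by
      rw [abs_mul, abs_of_pos (by positivity : 0 < 1 / l)]
      calc 1 / l * |∫ t in (0 : ℝ)..l, (q n).eval t| ≤ 1 / l * (l / ((n : ℝ) + 1)) :=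
            mul_le_mul_of_nonneg_left (hQl n) (by positivity)
        _ = _ := by field_simp
    have a3 : ((q n).eval σ - 1 / l * ∫ t in (0 : ℝ)..l, (q n).eval t) - deriv φ σ =
        ((q n).eval σ - deriv φ σ) - 1 / l * ∫ t in (0 : ℝ)..l, (q n).eval t := by ring
    rw [a3]
    calc _ ≤ |(q n).eval σ - deriv φ σ| + |1 / l * ∫ t in (0 : ℝ)..l, (q n).eval t| := abs_sub _ _
      _ ≤ 1 / ((n : ℝ) + 1) + 1 / ((n : ℝ) + 1) := add_le_add a1 a2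
      _ = _ := by ring
  refine ⟨fun n σ => (∫ t in (0 : ℝ)..σ, (q n).eval t) - σ / l * ∫ t in (0 : ℝ)..l, (q n).eval t,
    fun n => (hQs n).sub ((contDiff_id.div_const l).mul contDiff_const), fun n => by simp,
    fun n => by simp [div_self hl.ne'], fun n σ hσ => ?_, fun n σ hσ => ?_⟩
  · have hD : ∀ t ∈ Set.Icc 0 l, HasDerivWithinAt (fun σ => ((∫ t in (0 : ℝ)..σ, (q n).eval t) -
        σ / l * ∫ t in (0 : ℝ)..l, (q n).eval t) - φ σ)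
        (((q n).eval t - 1 / l * ∫ t in (0 : ℝ)..l, (q n).eval t) - deriv φ t) (Set.Icc 0 l) t :=
      fun t _ => ((hψd n t).sub (hφd t).hasDerivAt).hasDerivWithinAt
    have h3 := (convex_Icc (0 : ℝ) l).norm_image_sub_le_of_norm_hasDerivWithin_le hD
      (fun t ht => hder n t ht) (Set.left_mem_Icc.2 hl.le) hσ
    simp only [intervalIntegral.integral_same, zero_div, zero_mul, h0, sub_zero,
      Real.norm_eq_abs] at h3
    calc _ ≤ _ := h3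
      _ ≤ 2 / ((n : ℝ) + 1) * l := by
          rw [abs_of_nonneg hσ.1]
          exact mul_le_mul_of_nonneg_left hσ.2 (by positivity)
      _ = _ := by ring
  · rw [(hψd n σ).deriv]
    exact hder n σ hσ

/-- passage to the limit in a weighted integral of squares. -/
theorem sv_tendsto_integral_sq {l : ℝ} (hl : 0 < l) {f : ℝ → ℝ} {g : ℕ → ℝ → ℝ} {R : ℝ → ℝ} {C : ℝ}
    (hf : ContinuousOn f (Set.Icc 0 l)) (hg : ∀ n, ContinuousOn (g n) (Set.Icc 0 l))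
    (hR : ContinuousOn R (Set.Icc 0 l)) (hgf : ∀ n, ∀ σ ∈ Set.Icc 0 l, |g n σ - f σ| ≤ C / (n + 1)) :
    Filter.Tendsto (fun n => ∫ σ in (0 : ℝ)..l, g n σ ^ 2 * R σ) Filter.atTop
      (𝓝 (∫ σ in (0 : ℝ)..l, f σ ^ 2 * R σ)) := by
  obtain ⟨Mf, hMf⟩ := isCompact_Icc.exists_bound_of_continuousOn hf
  obtain ⟨MR, hMR⟩ := isCompact_Icc.exists_bound_of_continuousOn hR
  have hsub : Set.uIoc 0 l ⊆ Set.Icc 0 l := by
    rw [Set.uIoc_of_le hl.le]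
    exact Set.Ioc_subset_Icc_self
  have hCn : ∀ n : ℕ, C / ((n : ℝ) + 1) ≤ |C| := by
    intro n
    calc C / ((n : ℝ) + 1) ≤ |C| / ((n : ℝ) + 1) :=
          div_le_div_of_nonneg_right (le_abs_self C) (by positivity)
      _ ≤ |C| := div_le_self (abs_nonneg C) (by linarith [(Nat.cast_nonneg n : (0 : ℝ) ≤ n)])
  refine intervalIntegral.tendsto_integral_filter_of_dominated_convergence
    (fun _ => (Mf + |C|) ^ 2 * MR) ?_ ?_ intervalIntegrable_const ?_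
  · refine Filter.Eventually.of_forall fun n => ?_
    exact ((((hg n).pow 2).mul hR).mono hsub).aestronglyMeasurable measurableSet_uIoc
  · refine Filter.Eventually.of_forall fun n => Filter.Eventually.of_forall fun σ hσ => ?_
    have hσ' := hsub hσ
    have b1 : |g n σ| ≤ Mf + |C| := by
      have := hgf n σ hσ'
      have h2 := hMf σ hσ'
      rw [Real.norm_eq_abs] at h2
      have h3 : |g n σ| ≤ |g n σ - f σ| + |f σ| := by
        have := abs_add_le (g n σ - f σ) (f σ)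
        simpa using this
      linarith [hCn n]
    have b2 := hMR σ hσ'
    rw [norm_mul, norm_pow, Real.norm_eq_abs]
    exact mul_le_mul (pow_le_pow_left₀ (abs_nonneg _) b1 2) b2 (norm_nonneg _) (by positivity)
  · refine Filter.Eventually.of_forall fun σ hσ => ?_
    have hσ' := hsub hσ
    have t0 : Filter.Tendsto (fun n : ℕ => C / ((n : ℝ) + 1)) Filter.atTop (𝓝 0) := by
      have := (tendsto_one_div_add_atTop_nhds_zero_nat (𝕜 := ℝ)).const_mul C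
      simpa [div_eq_mul_inv] using this
    have t1 : Filter.Tendsto (fun n => g n σ - f σ) Filter.atTop (𝓝 0) :=
      squeeze_zero_norm (fun n => by rw [Real.norm_eq_abs]; exact hgf n σ hσ') t0
    have t2 : Filter.Tendsto (fun n => g n σ) Filter.atTop (𝓝 (f σ)) := by
      have := t1.add_const (f σ)
      simpa using this
    exact (t2.pow 2).mul_const _

end approx

/-! ### 4. The moving ball (leaf `G5-I-D`)

PLAN: part B of the header.  `sv_quadform_complex`: `a = x + i y`, `B a a = x² B 1 1 + x y (B 1 I + B I 1) + y² B I I`; `c = (B 1 1 + B I I)/2`, `κ = (B 1 1 - B I I)/2 - i (B 1 I + B I 1)/2`.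
`svEnd_quadratic`: `β a = w₀ + a • v' + a² • q` is a polynomial map; `Dβ(0) a = a • v'`, `D²β(0)(a,a) = 2 a² • q`; `chris` is complex bilinear. -/

section ball

theorem sv_quadform_complex (B : ℂ →L[ℝ] ℂ →L[ℝ] ℝ) :
    ∃ κ : ℂ, ∀ a : ℂ, B a a = (B 1 1 + B Complex.I Complex.I) / 2 * ‖a‖ ^ 2 + (κ * a ^ 2).re := by
  refine ⟨⟨(B 1 1 - B Complex.I Complex.I) / 2, -(B 1 Complex.I + B Complex.I 1) / 2⟩, fun a => ?_⟩
  have ha : a = a.re • (1 : ℂ) + a.im • Complex.I := by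
    apply Complex.ext <;> simp
  have h1 : B a a = a.re ^ 2 * B 1 1 + a.re * a.im * (B 1 Complex.I + B Complex.I 1) +
      a.im ^ 2 * B Complex.I Complex.I := by
    conv_lhs => rw [ha]
    simp only [map_add, map_smul, add_apply, smul_apply, smul_eq_mul]
    ring
  rw [h1, Complex.sq_norm, Complex.normSq_apply]
  simp only [sq, Complex.mul_re, Complex.mul_im]
  ring

/-- the real linear map `a ↦ a • v`. -/
noncomputable def svLin (v : CE ι) : ℂ →L[ℝ] CE ι :=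
  ((ContinuousLinearMap.id ℂ ℂ).smulRight v).restrictScalars ℝ

theorem svLin_apply (v : CE ι) (a : ℂ) : svLin v a = a • v := rfl

/-- jets of a quadratic curve. -/
theorem sv_quadratic_jets {W : Type} [NormedAddCommGroup W] [NormedSpace ℝ W] (w A B : W) :
    deriv (fun ε : ℝ => w + ε • A + ε ^ 2 • B) 0 = A ∧
      deriv (deriv fun ε : ℝ => w + ε • A + ε ^ 2 • B) 0 = (2 : ℝ) • B := by
  have key : ∀ ε : ℝ, HasDerivAt (fun ε : ℝ => w + ε • A + ε ^ 2 • B) (A + (2 * ε) • B) ε := by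
    intro ε
    have h1 : HasDerivAt (fun ε : ℝ => w + ε • A) A ε := by
      simpa using ((hasDerivAt_id ε).smul_const A).const_add w
    have h2 : HasDerivAt (fun ε : ℝ => ε ^ 2 • B) ((2 * ε) • B) ε := by
      have := ((hasDerivAt_id ε).pow 2).smul_const B
      simpa using this
    exact h1.add h2
  have h1 : deriv (fun ε : ℝ => w + ε • A + ε ^ 2 • B) = fun ε => A + (2 * ε) • B :=
    funext fun ε => (key ε).deriv
  have h2 : HasDerivAt (fun ε : ℝ => A + (2 * ε) • B) ((2 : ℝ) • B) 0 := by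
    have := (((hasDerivAt_id (0 : ℝ)).const_mul 2).smul_const B).const_add A
    simpa using this
  rw [h1]
  exact ⟨by simp, h2.deriv⟩

/-- quadratic holomorphic end data. -/
theorem svEnd_quadratic {Ψ : CE ι → V} {W : Set (CE ι)} (hΨ : 𝓜.IsHol Ψ W) {w₀ : CE ι} (hw₀ : w₀ ∈ W)
    (v' q : CE ι) (X : ℂ →L[ℝ] V) (hX : ∀ a : ℂ, fderiv ℝ Ψ w₀ (a • v') = X a) :
    SvEnd 𝓜 Ψ W (fun a : ℂ => w₀ + a • v' + a ^ 2 • q) (Ψ w₀) X ∧
    ∀ a : ℂ, svAcc h Ψ (fun a : ℂ => w₀ + a • v' + a ^ 2 • q) a =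
      fderiv ℝ Ψ w₀ (a ^ 2 • ((2 : ℂ) • q + chris (h Ψ) w₀ v' v')) := by
  have hs : ContDiff ℝ ∞ (fun a : ℂ => w₀ + a • v' + a ^ 2 • q) :=
    (contDiff_const.add (svLin v').contDiff).add
      ((svLin q).contDiff.comp (contDiff_id.pow 2))
  have h0 : w₀ + (0 : ℂ) • v' + (0 : ℂ) ^ 2 • q = w₀ := by simp
  have hline : ∀ a : ℂ, (fun ε : ℝ => (fun a : ℂ => w₀ + a • v' + a ^ 2 • q) (ε • a)) =
      fun ε : ℝ => w₀ + ε • (a • v') + ε ^ 2 • (a ^ 2 • q) := by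
    intro a
    funext ε
    simp only [smul_assoc]
    congr 1
    rw [smul_pow, smul_assoc]
  have hj : ∀ a : ℂ, fderiv ℝ (fun a : ℂ => w₀ + a • v' + a ^ 2 • q) 0 a = a • v' ∧
      fderiv ℝ (fderiv ℝ (fun a : ℂ => w₀ + a • v' + a ^ 2 • q)) 0 a a = (2 : ℝ) • (a ^ 2 • q) := by
    intro a
    obtain ⟨-, j1, j2⟩ := sv_line_jets (hs.contDiffAt.of_le ENat.LEInfty.out :
      ContDiffAt ℝ 2 (fun a : ℂ => w₀ + a • v' + a ^ 2 • q) 0) a
    rw [hline a] at j1 j2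
    obtain ⟨k1, k2⟩ := sv_quadratic_jets w₀ (a • v') (a ^ 2 • q)
    exact ⟨by rw [← j1, k1], by rw [← j2, k2]⟩
  refine ⟨⟨hΨ, hs, by rw [h0]; exact hw₀, by rw [h0], fun a => ?_⟩, fun a => ?_⟩
  · rw [h0, (hj a).1, hX]
  · unfold svAcc
    simp only
    rw [h0, (hj a).1, (hj a).2, chris_smul_left, chris_smul_right]
    congr 1
    rw [smul_add, smul_smul, smul_smul, sq, ← Complex.coe_smul, smul_smul]
    congr 2
    push_cast
    ring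

/-- strict positivity of the curvature term. -/
theorem sv_ambBisec_pos (hb : BisecPos 𝓜 h) {x a b : V} (hx : x ∈ 𝓜.carrier)
    (ha : a ∈ 𝓜.tangent x) (hb' : b ∈ 𝓜.tangent x) (ha0 : a ≠ 0) (hb0 : b ≠ 0) :
    0 < ambBisec 𝓜 h x a b := by
  have hp := 𝓜.isParam (𝓜.isHol_pΦ hx)
  have key : ∀ c ∈ 𝓜.tangent x, c ≠ 0 → (coVec (𝓜.pΦ x) (𝓜.co x) c : ι → ℂ) ≠ 0 := by
    rintro _ ⟨c', rfl⟩ hc h0
    rw [hp.coVec_fderiv (𝓜.co_mem hx)] at h0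
    apply hc
    have : c' = 0 := by
      ext k
      exact congrFun h0 k
    rw [this, map_zero]
  exact hb _ _ (𝓜.isHol_pΦ hx) _ (𝓜.co_mem hx) _ _ (key a ha ha0) (key b hb' hb0)

theorem sv_ambBisec_nonneg (hb : BisecNonneg 𝓜 h) {x : V} (hx : x ∈ 𝓜.carrier) (a b : V) :
    0 ≤ ambBisec 𝓜 h x a b :=
  hb _ _ (𝓜.isHol_pΦ hx) _ (𝓜.co_mem hx) _ _

/-- a frame over `ℂ` is complex linear in any parametrisation. -/
theorem SvFrame.apply_complex {γ : ℝ → V} {E : ℝ → ℂ →L[ℝ] V} {t₀ t₁ : ℝ}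
    (F : SvFrame 𝓜 h γ E (fun a : ℂ => Complex.I • a) t₀ t₁) {σ : ℝ} (hσ : σ ∈ Set.Ioo t₀ t₁)
    {Ψ : CE ι → V} {W : Set (CE ι)} (hΨ : 𝓜.IsHol Ψ W) {w₀ : CE ι} (hw₀ : w₀ ∈ W) (hy : Ψ w₀ = γ σ)
    {v' : CE ι} (hv' : fderiv ℝ Ψ w₀ v' = E σ 1) (a : ℂ) : fderiv ℝ Ψ w₀ (a • v') = E σ a := by
  have hI : E σ Complex.I = fderiv ℝ Ψ w₀ (Complex.I • v') := by
    have h1 := F.cplx σ hσ 1
    simp only [smul_eq_mul, mul_one] at h1
    rw [h1, ← hv', ← hy, ambJ_param hΨ hw₀]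
  have ha : a = a.re • (1 : ℂ) + a.im • Complex.I := by
    apply Complex.ext <;> simp
  have ha' : a • v' = a.re • v' + a.im • (Complex.I • v') := by
    conv_lhs => rw [ha]
    rw [add_smul, smul_assoc, smul_assoc, one_smul]
  conv_rhs => rw [ha]
  rw [ha', map_add, map_add, map_smul (fderiv ℝ Ψ w₀) a.re, map_smul (fderiv ℝ Ψ w₀) a.im,
    map_smul (E σ) a.re, map_smul (E σ) a.im, hv', hI]

theorem sv_reForm_smul_right (H : Matrix ι ι ℂ) (τ u : CE ι) (c : ℂ) :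
    reForm H τ (c • u) = (c * (star (τ : ι → ℂ) ⬝ᵥ H *ᵥ (u : ι → ℂ))).re := by
  unfold reForm
  have : ((c • u : CE ι) : ι → ℂ) = c • (u : ι → ℂ) := rfl
  rw [this, Matrix.mulVec_smul, dotProduct_smul, smul_eq_mul]

theorem sv4_main (hk : IsKahler 𝓜 h) (hconn : IsConnected 𝓜.carrier) (hb : BisecPos 𝓜 h) {γ : ℝ → V}
    {x y : V} {l : ℝ} (hγ : IsMinGeod 𝓜 h γ x y l) (hl : 0 < l)
    {Φ Ψ : CE ι → V} {U W : Set (CE ι)} (hΦ : 𝓜.IsHol Φ U) (hΨ : 𝓜.IsHol Ψ W) {z₀ w₀ : CE ι}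
    (hz₀ : z₀ ∈ U) (hw₀ : w₀ ∈ W) (hx : Φ z₀ = x) (hy : Ψ w₀ = y) (v : CE ι) :
    ∃ v' q : CE ι, qf (h Ψ w₀) v' = qf (h Φ z₀) v ∧
      ∀ᶠ a : ℂ in 𝓝 0, hdist 𝓜 h (Φ (z₀ + a • v)) (Ψ (w₀ + a • v' + a ^ 2 • q)) ≤ l := by
  by_cases hv0 : v = 0
  · subst hv0
    refine ⟨0, 0, by
      have : ((0 : CE ι) : ι → ℂ) = 0 := rfl
      rw [this, qf_zero_vec, qf_zero_vec], Filter.Eventually.of_forall fun a => ?_⟩
    simp only [smul_zero, add_zero]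
    rw [hx, hy]
    exact hγ.2.2.2.1.symm.le
  obtain ⟨ε, hε, hg, hu⟩ := sv_exists_unit hk hγ hl
  have hm := hk.toIsHForm
  have hγ0 : γ 0 = x := hγ.2.1
  have hγl : γ l = y := hγ.2.2.1
  have h0I : (0 : ℝ) ∈ Set.Ioo (-ε) (l + ε) := ⟨by linarith, by linarith⟩
  have hlI : l ∈ Set.Ioo (-ε) (l + ε) := ⟨by linarith, by linarith⟩
  have h0c : (0 : ℝ) ∈ Set.Icc 0 l := ⟨le_rfl, hl.le⟩
  have hlc : l ∈ Set.Icc 0 l := ⟨hl.le, le_rfl⟩
  have hsub : Set.Icc 0 l ⊆ Set.Ioo (-ε) (l + ε) := fun σ hσ =>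
    ⟨by linarith [hσ.1], by linarith [hσ.2]⟩
  -- the frame
  obtain ⟨E, F, hE0⟩ := exists_svFrame hk hg hu h0I ((fderiv ℝ Φ z₀).comp (svLin v))
    (fun a => by rw [hγ0, ← hx, CMfd.tangent_eq hΦ hz₀]; exact ⟨_, rfl⟩)
    (fun a : ℂ => Complex.I • a) (fun a => by
      rw [hγ0, ← hx, ContinuousLinearMap.comp_apply, ContinuousLinearMap.comp_apply,
        ambJ_param hΦ hz₀, svLin_apply, svLin_apply, smul_assoc])
  -- the vector `v'` and the coordinates of the velocities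
  have ht1 := F.mem_tangent hlI 1
  rw [hγl, ← hy, CMfd.tangent_eq hΨ hw₀] at ht1
  obtain ⟨v', hv'⟩ := ht1
  have hEl : ∀ a : ℂ, fderiv ℝ Ψ w₀ (a • v') = E l a :=
    F.apply_complex hlI hΨ hw₀ (hy.trans hγl.symm) hv'
  have ht2 := hγ.deriv_mem_tangent hlc
  rw [hγl, ← hy, CMfd.tangent_eq hΨ hw₀] at ht2
  obtain ⟨τl, hτl⟩ := ht2
  have ht3 := hγ.deriv_mem_tangent h0c
  rw [hγ0, ← hx, CMfd.tangent_eq hΦ hz₀] at ht3
  obtain ⟨τ0, hτ0⟩ := ht3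
  have hτ1 : star (τl : ι → ℂ) ⬝ᵥ h Ψ w₀ *ᵥ (τl : ι → ℂ) = 1 := by
    rw [← qf_ofReal _ (hm.herm hΨ w₀ hw₀), ← ambQ_param hm hΨ hw₀ τl, hτl, hy, ← hγl,
      hγ.ambQ_eq_one hk hl hlc]
    simp
  have hQ : qf (h Ψ w₀) v' = qf (h Φ z₀) v := by
    rw [← ambQ_param hm hΨ hw₀ v', hv', hy, ← hγl, F.ambQ_const hk hlI h0I 1, hE0, hγ0, ← hx,
      ContinuousLinearMap.comp_apply, svLin_apply, one_smul, ambQ_param hm hΦ hz₀]
  -- the index form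
  have hφ : ContDiff ℝ ∞ (fun _ : ℝ => (1 : ℝ)) := contDiff_const
  obtain ⟨𝓘, -, hsum, -, hend⟩ := F.good hk hconn hφ (a := 0) (b := l) (by linarith) hl
    (by linarith)
  have ea : SvEnd 𝓜 Φ U (fun a : ℂ => z₀ + svLin v a) (γ 0) ((fun _ : ℝ => (1 : ℝ)) 0 • E 0) := by
    have := svEnd_affine hΦ hz₀ (svLin v) ((fderiv ℝ Φ z₀).comp (svLin v)) (fun a => rfl)
    rw [hx] at this
    simpa [hγ0, hE0] using this
  have eb : ∀ q : CE ι, SvEnd 𝓜 Ψ W (fun a : ℂ => w₀ + a • v' + a ^ 2 • q) (γ l)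
      ((fun _ : ℝ => (1 : ℝ)) l • E l) := by
    intro q
    have := (svEnd_quadratic (h := h) hΨ hw₀ v' q (E l) hEl).1
    rw [hy] at this
    simpa [hγl] using this
  -- the boundary terms
  have hacc : ∀ (q : CE ι) (a : ℂ),
      ambB 𝓜 h (γ l) (deriv γ l) (svAcc h Ψ (fun a : ℂ => w₀ + a • v' + a ^ 2 • q) a) =
      (a ^ 2 * (2 * (star (τl : ι → ℂ) ⬝ᵥ h Ψ w₀ *ᵥ (q : ι → ℂ)) +
        star (τl : ι → ℂ) ⬝ᵥ h Ψ w₀ *ᵥ (chris (h Ψ) w₀ v' v' : ι → ℂ))).re := by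
    intro q a
    rw [(svEnd_quadratic (h := h) hΨ hw₀ v' q (E l) hEl).2 a, hγl, ← hy, ← hτl,
      ambB_param hm hΨ hw₀, sv_reForm_smul_right]
    have : (((2 : ℂ) • q + chris (h Ψ) w₀ v' v' : CE ι) : ι → ℂ) =
        (2 : ℂ) • (q : ι → ℂ) + (chris (h Ψ) w₀ v' v' : ι → ℂ) := rfl
    rw [this, Matrix.mulVec_add, dotProduct_add, Matrix.mulVec_smul, dotProduct_smul, smul_eq_mul]
  -- the case `q = 0`
  obtain ⟨𝓔₀, N₀, hN₀, h0N₀, h𝓔₀, -, -, -, hd2₀⟩ := hend _ _ _ _ _ _ ea (eb 0)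
  obtain ⟨κ, hκ⟩ := sv_quadform_complex (fderiv ℝ (fderiv ℝ 𝓔₀) 0)
  obtain ⟨c₀, hc₀⟩ : ∃ c₀ : ℝ, c₀ = (fderiv ℝ (fderiv ℝ 𝓔₀) 0 1 1 +
    fderiv ℝ (fderiv ℝ 𝓔₀) 0 Complex.I Complex.I) / 2 := ⟨_, rfl⟩
  rw [← hc₀] at hκ
  obtain ⟨g, hgdef⟩ : ∃ g : ℂ, g = star (τl : ι → ℂ) ⬝ᵥ h Ψ w₀ *ᵥ (chris (h Ψ) w₀ v' v' : ι → ℂ) :=
    ⟨_, rfl⟩
  obtain ⟨g₀, hg₀def⟩ : ∃ g₀ : ℂ,
    g₀ = star (τ0 : ι → ℂ) ⬝ᵥ h Φ z₀ *ᵥ (chris (h Φ) z₀ v v : ι → ℂ) := ⟨_, rfl⟩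
  have hA : ∀ a : ℂ, ambB 𝓜 h (γ 0) (deriv γ 0) (svAcc h Φ (fun a : ℂ => z₀ + svLin v a) a) =
      (a ^ 2 * g₀).re := by
    intro a
    rw [svAcc_affine, hγ0, ← hx, ← hτ0, ambB_param hm hΦ hz₀, svLin_apply, chris_smul_left,
      chris_smul_right, smul_smul, sv_reForm_smul_right, ← hg₀def, sq]
  have hI2 : ∀ a : ℂ, 2 * 𝓘 a =
      c₀ * ‖a‖ ^ 2 + (κ * a ^ 2).re - 2 * (a ^ 2 * g).re + 2 * (a ^ 2 * g₀).re := by
    intro a
    have h1 := hd2₀ a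
    rw [hκ a, hacc 0 a, ← hgdef, hA a] at h1
    have h2 : (star (τl : ι → ℂ) ⬝ᵥ h Ψ w₀ *ᵥ ((0 : CE ι) : ι → ℂ)) = 0 := by
      have : ((0 : CE ι) : ι → ℂ) = 0 := rfl
      rw [this, Matrix.mulVec_zero, dotProduct_zero]
    rw [h2, mul_zero, zero_add] at h1
    linarith
  -- `c₀ < 0`
  have hvpos : 0 < qf (h Φ z₀) v := by
    refine qf_pos (hk.posDef hΦ z₀ hz₀) fun h0 => hv0 ?_
    ext k
    exact congrFun h0 k
  have hJ : 0 < ∫ σ in (0 : ℝ)..l, ambBisec 𝓜 h (γ σ) (E σ 1) (deriv γ σ) := by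
    refine intervalIntegral.intervalIntegral_pos_of_pos_on ?_ ?_ hl
    · apply ContinuousOn.intervalIntegrable
      rw [Set.uIcc_of_le hl.le]
      exact (sv_continuousOn_ambBisec_along hk hg (F.par 1)).mono hsub
    · intro σ hσ
      have hσI : σ ∈ Set.Icc 0 l := ⟨hσ.1.le, hσ.2.le⟩
      have hne0 : deriv γ σ ≠ 0 := by
        intro h0
        have h1 := hγ.ambQ_eq_one hk hl hσI
        rw [h0, ambQ_zero (hγ.mem_carrier hσI)] at h1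
        exact zero_ne_one h1
      have hne1 : E σ 1 ≠ 0 := by
        intro h0
        have h1 := F.ambQ_const hk (hsub hσI) h0I 1
        rw [h0, ambQ_zero (hγ.mem_carrier hσI), hE0, hγ0, ← hx, ContinuousLinearMap.comp_apply,
          svLin_apply, one_smul, ambQ_param hm hΦ hz₀] at h1
        exact hvpos.ne h1
      exact sv_ambBisec_pos hb (hγ.mem_carrier hσI) (F.mem_tangent (hsub hσI) 1)
        (hγ.deriv_mem_tangent hσI) hne1 hne0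
  have hc₀neg : c₀ = -2 * ∫ σ in (0 : ℝ)..l, ambBisec 𝓜 h (γ σ) (E σ 1) (deriv γ σ) := by
    have s1 := hsum 1
    have i1 := hI2 1
    have i2 := hI2 (Complex.I • 1)
    simp only [smul_eq_mul, mul_one, deriv_const, one_pow, one_mul, Complex.I_sq, norm_one,
      Complex.norm_I, ne_eq, OfNat.ofNat_ne_zero, not_false_eq_true, zero_pow,
      intervalIntegral.integral_zero, mul_zero, zero_sub, mul_neg, neg_mul, Complex.neg_re]
      at s1 i1 i2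
    linarith
  -- the choice of `q`
  obtain ⟨𝓔, N, hN, h0N, h𝓔, hle, h𝓔0, hd1, hd2⟩ := hend _ _ _ _ _ _ ea (eb ((-κ / 4) • τl))
  have hd1' : ∀ a : ℂ, fderiv ℝ 𝓔 0 a = 0 := by
    intro a
    rw [hd1, F.ambB_deriv_const hk hlI h0I a]
    ring
  have hd2' : ∀ a : ℂ, fderiv ℝ (fderiv ℝ 𝓔) 0 a a = c₀ * ‖a‖ ^ 2 := by
    intro a
    have hq : star (τl : ι → ℂ) ⬝ᵥ h Ψ w₀ *ᵥ (((-κ / 4) • τl : CE ι) : ι → ℂ) = -κ / 4 := by
      have : (((-κ / 4) • τl : CE ι) : ι → ℂ) = (-κ / 4) • (τl : ι → ℂ) := rfl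
      rw [this, Matrix.mulVec_smul, dotProduct_smul, hτ1, smul_eq_mul, mul_one]
    rw [hd2, hacc, hA, hq, ← hgdef]
    have h1 := hI2 a
    have h2 : (a ^ 2 * (2 * (-κ / 4) + g)).re = -(κ * a ^ 2).re / 2 + (a ^ 2 * g).re := by
      have : a ^ 2 * (2 * (-κ / 4) + g) = -(κ * a ^ 2) / 2 + a ^ 2 * g := by ring
      rw [this, Complex.add_re, Complex.div_ofNat_re, Complex.neg_re]
    rw [h2]
    linarith
  have hmax := sv_le_of_hessian_neg hN h0N h𝓔 hd1' (c := -c₀) (by linarith)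
    (fun a => by rw [hd2', neg_neg])
  refine ⟨v', (-κ / 4) • τl, hQ, ?_⟩
  filter_upwards [hmax, hN.mem_nhds h0N] with a h1 h2
  have h3 := (hle a h2).2
  rw [h𝓔0] at h1
  simp only [sub_zero] at h1 h3
  have h4 : hdist 𝓜 h (Φ (z₀ + a • v)) (Ψ (w₀ + a • v' + a ^ 2 • ((-κ / 4) • τl))) ^ 2 ≤ l ^ 2 := by
    calc _ ≤ l * 𝓔 a := h3
      _ ≤ l * l := mul_le_mul_of_nonneg_left h1 hl.le
      _ = l ^ 2 := by ring
  exact (pow_le_pow_iff_left₀ (hdist_nonneg _ _ _ _) hl.le two_ne_zero).1 h4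

end ball

end Claimed.Agent.R316
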