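import Claimed.Agent.R316.Base.SV.Chain
import Claimed.Agent.R316.Pack022_2
import Claimed.Agent.R316.Pack011

/-!
# Row 316, `BP-G5`, file 3: from the energy of trial curves to support functions of the distance

Architect: helper154.  Input: `SvFrame.good` (`SV/Chain.lean`).  Output: `sv_master_amb`, the parametrisation free form of `sv_master` (`SV/Api.lean`), and the tools
used by the glue proofs of `SV/Api.lean`.

CONSTRUCTION of the support function.  `γ` minimizing from `o` to `x`, length `l`; `Φ₀ = 𝓜.pΦ x`, `z₀ = 𝓜.co x`; `P = CE ι`, `j p = I • p`; frame `E` with `E l = dΦ₀(z₀)`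
(`exists_svFrame`); `φ σ = σ / l`; end data: constant at `o`, `p ↦ z₀ + p` at `x`.  `SvFrame.good` gives `𝓔` with `hdist o (Φ₀ (z₀ + p))² ≤ l 𝓔 p`, `𝓔 0 = l`.
`s (Φ₀ z) := √(l 𝓔 (z - z₀))` near `z₀`, extended to a smooth function on `𝓜` (`sv_exists_global`).  With `g p = √(l 𝓔 p)` (`sv_sqrt_jet`):
`Dg(0) p = ⟨T, E l p⟩`, `D²g(0)(p,p) = 𝓘 p + ⟨T, dΦ₀ Γ(p,p)⟩ - ⟨T, E l p⟩²/l`; `Γ(Ip,Ip) = -Γ(p,p)`; `∫₀ˡ φ'² = 1/l`;
`qf (levi) p = (D²g(p,p) + D²g(Ip,Ip))/4 = |p|²/(2l) - (⟨T,Ep⟩² + ⟨T,JEp⟩²)/(4l) - (1/2) ∫ (σ/l)² bisec(E p, T)`   (EQUALITY).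

LEAVES: `G5-M-A` (section 1), `G5-M-B` (section 2), `G5-M-C` (section 3), `G5-M-D` (section 4).
-/

set_option autoImplicit false
set_option linter.unusedSectionVars false
set_option linter.unusedVariables false
open scoped ContDiff ComplexOrder Topology

namespace Claimed.Agent.R316

variable {V : Type} [NormedAddCommGroup V] [NormedSpace ℝ V] [FiniteDimensional ℝ V]
variable {ι : Type} [Fintype ι] [DecidableEq ι]
variable {P : Type} [NormedAddCommGroup P] [NormedSpace ℝ P] [FiniteDimensional ℝ P]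

/-! ### 1. Calculus tools (leaf `G5-M-A`; Mathlib + `CW/Levi.lean` only)

PLANS.  `sv_sqrt_jet`: `N' := N ∩ {p | 0 < 𝓔 p}` (open: `𝓔` is continuous on the open `N`); `Real.sqrt` is smooth on `Ioi 0` (`Real.contDiffAt_sqrt`).  The jets: reduce to one variable by
`lv_snd_line` (`fderiv ℝ (fderiv ℝ g) x a a = deriv (deriv fun s => g (x + s • a)) 0`), or use `HasFDerivAt.sqrt` near `0` and differentiate `p ↦ (l / (2 g p)) • D𝓔(p)` once more.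
`sv_le_of_hessian_neg`: `D²f` is continuous at `0`, so on a ball `B ⊆ N`: `D²f(q)(p,p) ≤ -(c/2)‖p‖² ≤ 0`; for `p ∈ B`, `k t := f (t • p)` on `[0,1]` has `k'' ≤ 0`, `k'(0) = 0`, so `k' ≤ 0`
(`antitoneOn_of_deriv_nonpos`) and `k 1 ≤ k 0`.
`sv_hessian_nonneg`: `lv_snd_line` + `deriv_deriv_nonneg_of_isLocalMin` (`CW/Levi.lean`). -/

section calculus

/-- one variable version of `sv_sqrt_jet`. -/
theorem sv_sqrt_jet1 {e : ℝ → ℝ} {l : ℝ} (hl : 0 < l) (he : ContDiffAt ℝ 2 e 0) (h0 : e 0 = l) :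
    deriv (fun ε => Real.sqrt (l * e ε)) 0 = deriv e 0 / 2 ∧
    deriv (deriv fun ε => Real.sqrt (l * e ε)) 0 =
      deriv (deriv e) 0 / 2 - deriv e 0 ^ 2 / (4 * l) := by
  have hpos : ∀ᶠ ε in 𝓝 (0 : ℝ), 0 < e ε :=
    he.continuousAt.eventually (lt_mem_nhds (by rw [h0]; exact hl))
  have hd : ∀ᶠ ε in 𝓝 (0 : ℝ), DifferentiableAt ℝ e ε :=
    (he.eventually (by simp)).mono fun _ h => h.differentiableAt (by norm_num)
  have key : ∀ ε, 0 < e ε → DifferentiableAt ℝ e ε →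
      HasDerivAt (fun ε => Real.sqrt (l * e ε)) (l * deriv e ε / (2 * Real.sqrt (l * e ε))) ε :=
    fun ε h1 h2 => (h2.hasDerivAt.const_mul l).sqrt (mul_pos hl h1).ne'
  have h1 : deriv (fun ε => Real.sqrt (l * e ε)) =ᶠ[𝓝 0]
      fun ε => l * deriv e ε / (2 * Real.sqrt (l * e ε)) := by
    filter_upwards [hpos, hd] with ε a1 a2
    exact (key ε a1 a2).deriv
  have hs : Real.sqrt (l * e 0) = l := by rw [h0, Real.sqrt_mul_self hl.le]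
  have d2 : HasDerivAt (deriv e) (deriv (deriv e) 0) 0 :=
    ((sv_contDiffAt_deriv he).differentiableAt (by norm_num)).hasDerivAt
  have k0 := key 0 hpos.self_of_nhds hd.self_of_nhds
  have h2 := (d2.const_mul l).div (k0.const_mul 2) (by rw [hs]; positivity)
  constructor
  · have h3 := h1.self_of_nhds
    simp only at h3
    rw [h3, hs]
    field_simp
  · have h2' : deriv (fun ε => l * deriv e ε / (2 * Real.sqrt (l * e ε))) 0 = _ := h2.deriv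
    rw [h1.deriv_eq, h2', hs]
    field_simp
    ring

theorem sv_sqrt_jet {𝓔 : P → ℝ} {N : Set P} {l : ℝ} (hl : 0 < l) (hN : IsOpen N) (h0 : (0 : P) ∈ N)
    (h𝓔 : ContDiffOn ℝ ∞ 𝓔 N) (he : 𝓔 0 = l) :
    (∃ N' : Set P, IsOpen N' ∧ (0 : P) ∈ N' ∧ N' ⊆ N ∧
      ContDiffOn ℝ ∞ (fun p => Real.sqrt (l * 𝓔 p)) N') ∧
    Real.sqrt (l * 𝓔 0) = l ∧
    (∀ p, fderiv ℝ (fun p => Real.sqrt (l * 𝓔 p)) 0 p = fderiv ℝ 𝓔 0 p / 2) ∧
    ∀ p, fderiv ℝ (fderiv ℝ fun p => Real.sqrt (l * 𝓔 p)) 0 p p =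
      fderiv ℝ (fderiv ℝ 𝓔) 0 p p / 2 - fderiv ℝ 𝓔 0 p ^ 2 / (4 * l) := by
  have hop : IsOpen (N ∩ 𝓔 ⁻¹' Set.Ioi 0) := h𝓔.continuousOn.isOpen_inter_preimage hN isOpen_Ioi
  have hmem : (0 : P) ∈ N ∩ 𝓔 ⁻¹' Set.Ioi 0 := ⟨h0, by
    show 0 < 𝓔 0
    rw [he]; exact hl⟩
  have hg : ContDiffOn ℝ ∞ (fun p => Real.sqrt (l * 𝓔 p)) (N ∩ 𝓔 ⁻¹' Set.Ioi 0) :=
    ((contDiffOn_const.mul (h𝓔.mono Set.inter_subset_left))).sqrt
      fun p hp => (mul_pos hl hp.2).ne'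
  have g2 : ContDiffAt ℝ 2 (fun p => Real.sqrt (l * 𝓔 p)) 0 :=
    (hg.contDiffAt (hop.mem_nhds hmem)).of_le ENat.LEInfty.out
  have e2 : ContDiffAt ℝ 2 𝓔 0 := (h𝓔.contDiffAt (hN.mem_nhds h0)).of_le ENat.LEInfty.out
  refine ⟨⟨_, hop, hmem, Set.inter_subset_left, hg⟩, by rw [he, Real.sqrt_mul_self hl.le],
    fun p => ?_, fun p => ?_⟩
  · obtain ⟨a1, a2, a3⟩ := sv_line_jets e2 p
    obtain ⟨b1, b2, b3⟩ := sv_line_jets g2 p
    rw [← b2, ← a2]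
    exact (sv_sqrt_jet1 hl a1 (by simpa using he)).1
  · obtain ⟨a1, a2, a3⟩ := sv_line_jets e2 p
    obtain ⟨b1, b2, b3⟩ := sv_line_jets g2 p
    rw [← b3, ← a2, ← a3]
    exact (sv_sqrt_jet1 hl a1 (by simpa using he)).2

set_option maxSynthPendingDepth 3 in
/-- second order sufficient condition for a local maximum. -/
theorem sv_le_of_hessian_neg {f : P → ℝ} {N : Set P} (hN : IsOpen N) (h0 : (0 : P) ∈ N)
    (hf : ContDiffOn ℝ ∞ f N) (h1 : ∀ p, fderiv ℝ f 0 p = 0) {c : ℝ} (hc : 0 < c)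
    (h2 : ∀ p, fderiv ℝ (fderiv ℝ f) 0 p p ≤ - c * ‖p‖ ^ 2) : ∀ᶠ p in 𝓝 (0 : P), f p ≤ f 0 := by
  have hf1 : ContDiffOn ℝ ∞ (fderiv ℝ f) N := hf.fderiv_of_isOpen hN (by simp)
  have hf2 : ContDiffOn ℝ ∞ (fderiv ℝ (fderiv ℝ f)) N := hf1.fderiv_of_isOpen hN (by simp)
  have hcont : ContinuousAt (fderiv ℝ (fderiv ℝ f)) 0 := (hf2.contDiffAt (hN.mem_nhds h0)).continuousAt
  have hev : ∀ᶠ q in 𝓝 (0 : P), q ∈ N ∧
      ‖fderiv ℝ (fderiv ℝ f) q - fderiv ℝ (fderiv ℝ f) 0‖ < c := by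
    have hn : ContinuousAt
        (fun q => ‖fderiv ℝ (fderiv ℝ f) q - fderiv ℝ (fderiv ℝ f) 0‖) 0 :=
      (hcont.sub continuousAt_const).norm
    have h3 := hn.eventually_lt (continuousAt_const (y := c)) (by simpa using hc)
    filter_upwards [hN.mem_nhds h0, h3] with q hq hq'
    exact ⟨hq, hq'⟩
  obtain ⟨r, hr, hball⟩ := Metric.eventually_nhds_iff_ball.1 hev
  filter_upwards [Metric.ball_mem_nhds (0 : P) hr] with p hp
  have hseg : ∀ t ∈ Set.Icc (0 : ℝ) 1, t • p ∈ Metric.ball (0 : P) r := by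
    intro t ht
    rw [mem_ball_zero_iff] at hp ⊢
    rw [norm_smul, Real.norm_eq_abs, abs_of_nonneg ht.1]
    calc t * ‖p‖ ≤ 1 * ‖p‖ := mul_le_mul_of_nonneg_right ht.2 (norm_nonneg _)
      _ < r := by rwa [one_mul]
  have hline : ∀ t : ℝ, HasDerivAt (fun t : ℝ => t • p) p t := fun t => by
    simpa using (hasDerivAt_id t).smul_const p
  have d0 : ∀ t ∈ Set.Icc (0 : ℝ) 1, HasDerivAt (fun t : ℝ => f (t • p)) (fderiv ℝ f (t • p) p) t := by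
    intro t ht
    have hd : DifferentiableAt ℝ f (t • p) :=
      (hf.contDiffAt (hN.mem_nhds (hball _ (hseg t ht)).1)).differentiableAt (by simp)
    exact hd.hasFDerivAt.comp_hasDerivAt t (hline t)
  have d1 : ∀ t ∈ Set.Icc (0 : ℝ) 1, HasDerivAt (fun t : ℝ => fderiv ℝ f (t • p) p)
      (fderiv ℝ (fderiv ℝ f) (t • p) p p) t := by
    intro t ht
    have hd : DifferentiableAt ℝ (fderiv ℝ f) (t • p) :=
      (hf1.contDiffAt (hN.mem_nhds (hball _ (hseg t ht)).1)).differentiableAt (by simp)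
    have h4 := hd.hasFDerivAt.comp_hasDerivAt t (hline t)
    have h5 := h4.clm_apply (hasDerivAt_const t p)
    simpa using h5
  have neg : ∀ t ∈ Set.Icc (0 : ℝ) 1, fderiv ℝ (fderiv ℝ f) (t • p) p p ≤ 0 := by
    intro t ht
    have b1 := (hball _ (hseg t ht)).2
    have b2 : (fderiv ℝ (fderiv ℝ f) (t • p) - fderiv ℝ (fderiv ℝ f) 0) p p ≤
        ‖fderiv ℝ (fderiv ℝ f) (t • p) - fderiv ℝ (fderiv ℝ f) 0‖ * ‖p‖ * ‖p‖ :=
      (Real.le_norm_self _).trans (ContinuousLinearMap.le_opNorm₂ _ p p)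
    have b3 : ‖fderiv ℝ (fderiv ℝ f) (t • p) - fderiv ℝ (fderiv ℝ f) 0‖ * ‖p‖ * ‖p‖ ≤
        c * ‖p‖ * ‖p‖ := by gcongr
    have b4 := h2 p
    simp only [sub_apply] at b2
    nlinarith
  have hint : interior (Set.Icc (0 : ℝ) 1) ⊆ Set.Icc (0 : ℝ) 1 := interior_subset
  have a1 : AntitoneOn (fun t : ℝ => fderiv ℝ f (t • p) p) (Set.Icc (0 : ℝ) 1) :=
    antitoneOn_of_deriv_nonpos (convex_Icc 0 1)
      (fun t ht => (d1 t ht).continuousAt.continuousWithinAt)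
      (fun t ht => (d1 t (hint ht)).differentiableAt.differentiableWithinAt)
      (fun t ht => by rw [(d1 t (hint ht)).deriv]; exact neg t (hint ht))
  have a0 : AntitoneOn (fun t : ℝ => f (t • p)) (Set.Icc (0 : ℝ) 1) :=
    antitoneOn_of_deriv_nonpos (convex_Icc 0 1)
      (fun t ht => (d0 t ht).continuousAt.continuousWithinAt)
      (fun t ht => (d0 t (hint ht)).differentiableAt.differentiableWithinAt)
      (fun t ht => by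
        rw [(d0 t (hint ht)).deriv]
        have := a1 (Set.left_mem_Icc.2 zero_le_one) (hint ht) (hint ht).1
        simpa [h1] using this)
  have := a0 (Set.left_mem_Icc.2 zero_le_one) (Set.right_mem_Icc.2 zero_le_one) zero_le_one
  simpa using this

/-- second order necessary condition for a local minimum. -/
theorem sv_hessian_nonneg {f : P → ℝ} {N : Set P} (hN : IsOpen N) (h0 : (0 : P) ∈ N)
    (hf : ContDiffOn ℝ ∞ f N) (hmin : ∀ᶠ p in 𝓝 (0 : P), f 0 ≤ f p) (p : P) :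
    0 ≤ fderiv ℝ (fderiv ℝ f) 0 p p := by
  have f2 : ContDiffAt ℝ 2 f 0 := (hf.contDiffAt (hN.mem_nhds h0)).of_le ENat.LEInfty.out
  obtain ⟨a1, -, a3⟩ := sv_line_jets f2 p
  rw [← a3]
  refine deriv_deriv_nonneg_of_isLocalMin a1 ?_
  have hc : ContinuousAt (fun ε : ℝ => ε • p) 0 := by fun_prop
  have h1 : ∀ᶠ q in 𝓝 ((0 : ℝ) • p), f 0 ≤ f q := by simpa using hmin
  filter_upwards [hc.eventually h1] with ε hε
  simpa using hε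

/-- `|∂u(a)|² = (du(a)² + du(Ia)²)/4`  (`fderiv_real_eq` of `CW/Basic.lean` for `a` and `I • a`). -/
theorem sv_normSq_grad10 {u : CE ι → ℝ} {z : CE ι} (hu : DifferentiableAt ℝ u z) (a : CE ι) :
    ‖∑ k, grad10 u z k * a k‖ ^ 2 =
      (fderiv ℝ u z a ^ 2 + fderiv ℝ u z (Complex.I • a) ^ 2) / 4 := by
  have h1 := fderiv_real_eq u hu a
  have h2 := fderiv_real_eq u hu (Complex.I • a)
  have h3 : ∑ k, grad10 u z k * (Complex.I • a) k = Complex.I * ∑ k, grad10 u z k * a k := by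
    rw [Finset.mul_sum]
    refine Finset.sum_congr rfl fun k _ => ?_
    simp only [PiLp.smul_apply, smul_eq_mul]
    ring
  rw [h3] at h2
  rw [h1, h2, Complex.sq_norm, Complex.normSq_apply]
  simp only [Complex.mul_re, Complex.I_re, Complex.I_im]
  ring

/-- the Levi form from the second derivative, translated to the origin of the parameter space. -/
theorem sv_qf_levi_translate {g : CE ι → ℝ} {N : Set (CE ι)} (hN : IsOpen N) (h0 : (0 : CE ι) ∈ N)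
    (hg : ContDiffOn ℝ ∞ g N) (z₀ a : CE ι) :
    qf (levi (fun z => g (z - z₀)) z₀) a =
      (fderiv ℝ (fderiv ℝ g) 0 a a + fderiv ℝ (fderiv ℝ g) 0 (Complex.I • a) (Complex.I • a)) / 4 ∧
    fderiv ℝ (fun z => g (z - z₀)) z₀ a = fderiv ℝ g 0 a := by
  have g2 : ContDiffAt ℝ 2 g ((fun z : CE ι => z - z₀) z₀) := by
    simp only [sub_self]
    exact (hg.contDiffAt (hN.mem_nhds h0)).of_le ENat.LEInfty.out
  have hs : ContDiffAt ℝ 2 (fun z : CE ι => z - z₀) z₀ := contDiffAt_id.sub contDiffAt_const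
  have hf : ContDiffAt ℝ 2 (fun z => g (z - z₀)) z₀ :=
    ContDiffAt.comp (f := fun z : CE ι => z - z₀) z₀ g2 hs
  have d1 : ∀ z : CE ι, fderiv ℝ (fun z : CE ι => z - z₀) z = ContinuousLinearMap.id ℝ (CE ι) := by
    intro z
    rw [fderiv_sub_const]
    exact fderiv_fun_id
  have d2 : fderiv ℝ (fderiv ℝ (fun z : CE ι => z - z₀)) z₀ = 0 := by
    have : fderiv ℝ (fun z : CE ι => z - z₀) = fun _ => ContinuousLinearMap.id ℝ (CE ι) := funext d1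
    rw [this]
    simp
  have key : ∀ b : CE ι, fderiv ℝ (fun z => g (z - z₀)) z₀ b = fderiv ℝ g 0 b ∧
      fderiv ℝ (fderiv ℝ (fun z => g (z - z₀))) z₀ b b = fderiv ℝ (fderiv ℝ g) 0 b b := by
    intro b
    obtain ⟨k1, k2⟩ := sv_fderiv2_comp (f := fun z : CE ι => z - z₀) g2 hs b
    simp only [d1, d2, sub_self] at k2
    simp only [d1, sub_self] at k1
    exact ⟨by simpa using k1, by simpa using k2⟩
  refine ⟨?_, (key a).1⟩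
  have h1 := qf_levi hf a
  rw [lv_fderiv_apply_eq hf, lv_fderiv_apply_eq hf, (key a).2, (key _).2] at h1
  have h2 : qf (levi (fun z => g (z - z₀)) z₀) a = qf (levi (fun z => g (z - z₀)) z₀) (fun j => a j) :=
    rfl
  rw [h2, h1]
  ring

end calculus

variable {𝓜 : CMfd V ι} {h : HFam V ι}

/-! ### 2. Transplantation to the manifold (leaf `G5-M-B`)

PLANS.  `sv_exists_global`: closed ball `C = closedBall z₀ r ⊆ N ∩ U`; `χ` a smooth bump on `CE ι`, `= 1` near `z₀`, support in `C` (`ContDiffBump`); `CMfd.exists_smooth_of_chart` (`Vol/Part.lean`) applied to `χ f`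
(extended by `0`; smooth on `U` because it vanishes off `C` and `f` is smooth on the neighbourhood `N` of `C`).
`sv_hasDerivAt_comp`: `Φ = 𝓜.pΦ x`; `s ∘ c = (s ∘ Φ) ∘ (invFunOn Φ U ∘ c)` near `0`; `IsParam.hasFDerivAt_invFunOn_comp`, `IsParam.coVec_deriv`; definition of `ambD`.
`sv_gradSq_of_ambD`: in `Φ = 𝓜.pΦ x`, `H = h Φ z`, `τ = coVec T`: `du(a) = Re (τᴴ H a)` for all `a`, so `grad10 u z k = (1/2) (τᴴ H)_k` (`dz` unfolded: `(du(e_k) - i du(i e_k))/2`), and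
`qf (H⁻¹)ᵀ (grad10) = (1/4) τᴴ H τ` (`gradSq_eq`, matrix algebra: `CW/MatAlg.lean`).
`sv_continuousOn_ambBisec_along`: local in `σ`; near `σ₀` take `Φ`, `ρ` as in `SvFrame.exists_local`: `ambBisec = bisec h Φ (c σ) (dρ (E σ)) (c' σ)` (`ambBisec_param`), a finite sum of products of
continuous functions (`contDiffOn_Rm`). -/

section transplant

theorem sv_exists_global {Φ : CE ι → V} {U : Set (CE ι)} (hΦ : 𝓜.IsHol Φ U) {z₀ : CE ι} (hz₀ : z₀ ∈ U)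
    {f : CE ι → ℝ} {N : Set (CE ι)} (hN : IsOpen N) (hzN : z₀ ∈ N) (hf : ContDiffOn ℝ ∞ f N) :
    ∃ s : V → ℝ, 𝓜.Smooth s ∧ ∀ᶠ z in 𝓝 z₀, s (Φ z) = f z := by
  have hU := (𝓜.isParam hΦ).isOpen
  obtain ⟨r, hr, hball⟩ := Metric.nhds_basis_closedBall.mem_iff.1 ((hN.inter hU).mem_nhds ⟨hzN, hz₀⟩)
  let χ : ContDiffBump z₀ := ⟨r / 2, r, by positivity, by linarith⟩
  have hχ : ContDiff ℝ ∞ (χ : CE ι → ℝ) := χ.contDiff
  have hzero : ∀ z, z ∉ Metric.closedBall z₀ r → χ z = 0 := by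
    intro z hz
    apply χ.zero_of_le_dist
    rw [Metric.mem_closedBall, not_le] at hz
    exact hz.le
  have hF : ContDiffOn ℝ ∞ (fun z => χ z * f z) U := by
    intro z hz
    by_cases hzN' : z ∈ N
    · exact (hχ.contDiffAt.mul (hf.contDiffAt (hN.mem_nhds hzN'))).contDiffWithinAt
    · have hzc : z ∈ (Metric.closedBall z₀ r)ᶜ := fun hc => hzN' (hball hc).1
      have he : (fun z => χ z * f z) =ᶠ[𝓝 z] fun _ => 0 := by
        filter_upwards [Metric.isClosed_closedBall.isOpen_compl.mem_nhds hzc] with w hw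
        rw [hzero w hw, zero_mul]
      exact (contDiffAt_const.congr_of_eventuallyEq he).contDiffWithinAt
  obtain ⟨u, hu, hu1, -⟩ := CMfd.exists_smooth_of_chart hΦ (isCompact_closedBall z₀ r)
    (fun z hz => (hball hz).2) hF (fun z _ hz => by simp only [hzero z hz, zero_mul])
  refine ⟨u, hu, ?_⟩
  filter_upwards [hU.mem_nhds hz₀, χ.eventuallyEq_one] with z hz h1
  rw [hu1 z hz, h1]
  simp

/-- support functions may be checked in one parametrisation. -/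
theorem sv_upperSupp_of_chart {Φ : CE ι → V} {U : Set (CE ι)} (hΦ : 𝓜.IsHol Φ U) {z₀ : CE ι}
    (hz₀ : z₀ ∈ U) {f s : V → ℝ} (hs : 𝓜.Smooth s) (hle : ∀ᶠ z in 𝓝 z₀, f (Φ z) ≤ s (Φ z))
    (heq : s (Φ z₀) = f (Φ z₀)) : UpperSupp 𝓜 f s (Φ z₀) where
  smooth := hs
  le := by
    rw [← (𝓜.isParam hΦ).map_nhds_eq hz₀]
    exact Filter.eventually_map.2 hle
  eq := heq

/-- chain rule along curves in the manifold. -/
theorem sv_hasDerivAt_comp {s : V → ℝ} (hs : 𝓜.Smooth s) {c : ℝ → V} (hc : DifferentiableAt ℝ c 0)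
    (hmem : ∀ᶠ t in 𝓝 (0 : ℝ), c t ∈ 𝓜.carrier) :
    HasDerivAt (fun t => s (c t)) (ambD 𝓜 s (c 0) (deriv c 0)) 0 := by
  have hx : c 0 ∈ 𝓜.carrier := hmem.self_of_nhds
  have hΦ := 𝓜.isHol_pΦ hx
  have hp := 𝓜.isParam hΦ
  have him := 𝓜.mem_image_pΦ hx
  obtain ⟨d1, -⟩ := hp.hasFDerivAt_invFunOn_comp hc hmem him
  have h2 := hp.coVec_deriv hc hmem him
  obtain ⟨W, hW, hWeq⟩ := hp.image
  have hcW : c 0 ∈ W := (hWeq ▸ him : c 0 ∈ 𝓜.carrier ∩ W).2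
  have he : (fun t => s (c t)) =ᶠ[𝓝 0]
      fun t => (s ∘ 𝓜.pΦ (c 0)) ((Function.invFunOn (𝓜.pΦ (c 0)) (𝓜.pU (c 0)) ∘ c) t) := by
    filter_upwards [hmem, hc.continuousAt.eventually (hW.mem_nhds hcW)] with t h1 h3
    have h4 : c t ∈ 𝓜.pΦ (c 0) '' 𝓜.pU (c 0) := hWeq ▸ (⟨h1, h3⟩ : c t ∈ 𝓜.carrier ∩ W)
    simp only [Function.comp]
    rw [Function.invFunOn_eq h4]
  have d2 : DifferentiableAt ℝ (s ∘ 𝓜.pΦ (c 0)) (𝓜.co (c 0)) :=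
    ((hs _ _ hΦ).contDiffAt (hp.isOpen.mem_nhds (𝓜.co_mem hx))).differentiableAt (by simp)
  have h5 := HasFDerivAt.comp_hasDerivAt (x := (0 : ℝ))
    (f := Function.invFunOn (𝓜.pΦ (c 0)) (𝓜.pU (c 0)) ∘ c) (l := s ∘ 𝓜.pΦ (c 0))
    (l' := fderiv ℝ (s ∘ 𝓜.pΦ (c 0)) (𝓜.co (c 0))) d2.hasFDerivAt d1.hasDerivAt
  refine (h5.congr_of_eventuallyEq he).congr_deriv ?_
  unfold ambD
  rw [← h2]
  rfl

/-- the gradient norm of a function with `ds = ⟨T, ·⟩`. -/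
theorem sv_gradSq_of_ambD (hm : IsMetric 𝓜 h) {s : V → ℝ} (hs : 𝓜.Smooth s) {x T : V}
    (hx : x ∈ 𝓜.carrier) (hT : T ∈ 𝓜.tangent x)
    (hd : ∀ a ∈ 𝓜.tangent x, ambD 𝓜 s x a = ambB 𝓜 h x T a) :
    gradSq 𝓜 h s x = ambQ 𝓜 h x T / 4 := by
  have hΦ := 𝓜.isHol_pΦ hx
  have hp := 𝓜.isParam hΦ
  have hz := 𝓜.co_mem hx
  have d2 : DifferentiableAt ℝ (s ∘ 𝓜.pΦ x) (𝓜.co x) :=
    ((hs _ _ hΦ).contDiffAt (hp.isOpen.mem_nhds hz)).differentiableAt (by simp)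
  have h1 := gradSqF_eq_of_riesz hm hΦ hz d2 (T := coVec (𝓜.pΦ x) (𝓜.co x) T) (fun b => by
    have h2 := hd (fderiv ℝ (𝓜.pΦ x) (𝓜.co x) b) ⟨b, rfl⟩
    unfold ambD ambB at h2
    rw [hp.coVec_fderiv hz] at h2
    exact h2)
  exact h1

/-- local representation of a geodesic in one parametrisation, with a smooth left inverse. -/
theorem sv_local_rep {γ : ℝ → V} {t₀ t₁ t : ℝ} (hγ : IsGeodesic 𝓜 h γ (Set.Ioo t₀ t₁))
    (ht : t ∈ Set.Ioo t₀ t₁) :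
    ∃ δ > 0, Set.Ioo (t - δ) (t + δ) ⊆ Set.Ioo t₀ t₁ ∧
      ∃ (Φ : CE ι → V) (U : Set (CE ι)) (O : Set V) (ρ : V → CE ι),
        𝓜.IsHol Φ U ∧ IsOpen O ∧ ContDiffOn ℝ ∞ ρ O ∧
        (∀ σ ∈ Set.Ioo (t - δ) (t + δ), γ σ ∈ O ∧ ρ (γ σ) ∈ U ∧ Φ (ρ (γ σ)) = γ σ) ∧
        (kgeo h Φ U).IsGeod (fun σ => ρ (γ σ)) (Set.Ioo (t - δ) (t + δ)) ∧
        (∀ σ ∈ Set.Ioo (t - δ) (t + δ),
          fderiv ℝ Φ (ρ (γ σ)) (deriv (fun σ => ρ (γ σ)) σ) = deriv γ σ) ∧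
        ∀ σ ∈ Set.Ioo (t - δ) (t + δ), ∀ a ∈ 𝓜.tangent (γ σ),
          fderiv ℝ Φ (ρ (γ σ)) (fderiv ℝ ρ (γ σ) a) = a := by
  have hx : γ t ∈ 𝓜.carrier := hγ.2.1 t ht
  have hΦ := 𝓜.isHol_pΦ hx
  have hp := 𝓜.isParam hΦ
  obtain ⟨O, ρ, hO, hzO, hρ, hinv⟩ := hp.exists_smooth_leftInverse (𝓜.co_mem hx)
  rw [𝓜.pΦ_co hx] at hzO
  have hcont : ContinuousAt γ t := (hγ.1.contDiffAt (isOpen_Ioo.mem_nhds ht)).continuousAt
  have hnhds : Set.Ioo t₀ t₁ ∩ γ ⁻¹' O ∈ 𝓝 t :=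
    Filter.inter_mem (isOpen_Ioo.mem_nhds ht) (hcont.preimage_mem_nhds (hO.mem_nhds hzO))
  obtain ⟨δ, hδ, hball⟩ := Metric.mem_nhds_iff.1 hnhds
  rw [Real.ball_eq_Ioo] at hball
  have hI : Set.Ioo (t - δ) (t + δ) ⊆ Set.Ioo t₀ t₁ := fun σ hσ => (hball hσ).1
  have hγO : ∀ σ ∈ Set.Ioo (t - δ) (t + δ), γ σ ∈ O := fun σ hσ => (hball hσ).2
  have hγM : ∀ σ ∈ Set.Ioo (t - δ) (t + δ), γ σ ∈ 𝓜.carrier := fun σ hσ => hγ.2.1 σ (hI hσ)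
  have hc : ∀ σ ∈ Set.Ioo (t - δ) (t + δ), ρ (γ σ) ∈ 𝓜.pU (γ t) ∧ 𝓜.pΦ (γ t) (ρ (γ σ)) = γ σ := by
    intro σ hσ
    obtain ⟨h1, h2⟩ := hinv (γ σ) ⟨hγM σ hσ, hγO σ hσ⟩
    rw [h2]
    exact ⟨Function.invFunOn_mem h1, Function.invFunOn_eq h1⟩
  have hgeod := hγ.2.2 _ _ hΦ (fun σ => ρ (γ σ)) _ hI isOpen_Ioo hc
  refine ⟨δ, hδ, hI, 𝓜.pΦ (γ t), 𝓜.pU (γ t), O, ρ, hΦ, hO, hρ,
    fun σ hσ => ⟨hγO σ hσ, hc σ hσ⟩, hgeod, ?_, ?_⟩
  · intro σ hσ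
    have hn := isOpen_Ioo.mem_nhds hσ
    have d1 : DifferentiableAt ℝ (fun σ => ρ (γ σ)) σ :=
      (hgeod.1.contDiffAt hn).differentiableAt (by simp)
    have d2 : DifferentiableAt ℝ (𝓜.pΦ (γ t)) (ρ (γ σ)) :=
      (hp.smooth.contDiffAt (hp.isOpen.mem_nhds (hc σ hσ).1)).differentiableAt (by simp)
    have h1 : γ =ᶠ[𝓝 σ] fun s => 𝓜.pΦ (γ t) (ρ (γ s)) := by
      filter_upwards [hn] with s hs
      exact (hc s hs).2.symm
    rw [h1.deriv_eq]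
    exact (d2.hasFDerivAt.comp_hasDerivAt σ d1.hasDerivAt).deriv.symm
  · intro σ hσ a h1
    rw [← (hc σ hσ).2, CMfd.tangent_eq hΦ (hc σ hσ).1] at h1
    obtain ⟨v, hv⟩ := h1
    have h2 := sv_fderiv_leftInverse hp hO hρ hinv (hc σ hσ).1
      (by rw [(hc σ hσ).2]; exact hγO σ hσ) v
    rw [(hc σ hσ).2] at h2
    rw [← hv, h2]

/-- continuity of the curvature term along a geodesic. -/
theorem sv_continuousOn_ambBisec_along (hk : IsKahler 𝓜 h) {γ E : ℝ → V} {t₀ t₁ : ℝ}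
    (hγ : IsGeodesic 𝓜 h γ (Set.Ioo t₀ t₁)) (hE : IsParallelAlong 𝓜 h γ E (Set.Ioo t₀ t₁)) :
    ContinuousOn (fun σ => ambBisec 𝓜 h (γ σ) (E σ) (deriv γ σ)) (Set.Ioo t₀ t₁) := by
  intro t ht
  obtain ⟨δ, hδ, hI, Φ, U, O, ρ, hΦ, hO, hρ, hc, hgeod, hvel, hfr⟩ := sv_local_rep hγ ht
  have hS := kgeo_isRiem hk hΦ
  have d1 : ContDiffOn ℝ ∞ (deriv fun σ => ρ (γ σ)) (Set.Ioo (t - δ) (t + δ)) :=
    hgeod.1.deriv_of_isOpen isOpen_Ioo (by simp)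
  have h1 : ContDiffOn ℝ ∞ (fderiv ℝ ρ) O := hρ.fderiv_of_isOpen hO (by simp)
  have h2 : ContDiffOn ℝ ∞ (fun σ => fderiv ℝ ρ (γ σ) (E σ)) (Set.Ioo (t - δ) (t + δ)) :=
    (h1.comp (hγ.1.mono hI) fun σ hσ => (hc σ hσ).1).clm_apply (hE.1.mono hI)
  have h3 : ContDiffOn ℝ ∞ (fun σ => Complex.I • fderiv ℝ ρ (γ σ) (E σ))
      (Set.Ioo (t - δ) (t + δ)) := h2.const_smul Complex.I
  have sec : ∀ Z : ℝ → CE ι, ContDiffOn ℝ ∞ Z (Set.Ioo (t - δ) (t + δ)) → ContDiffOn ℝ ∞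
      (fun σ => (kgeo h Φ U).secNum (ρ (γ σ)) (Z σ) (deriv (fun σ => ρ (γ σ)) σ))
      (Set.Ioo (t - δ) (t + δ)) := fun Z hZ =>
    hS.contDiffOn_G_comp le_rfl hgeod.1 hgeod.2.1
      (hS.contDiffOn_curv_comp hgeod.1 hgeod.2.1 hZ d1 d1) hZ
  have h4 := (((sec _ h2).add (sec _ h3)).continuousOn.div_const 2).continuousAt
    (isOpen_Ioo.mem_nhds (show t ∈ Set.Ioo (t - δ) (t + δ) from ⟨by linarith, by linarith⟩))
  refine (h4.congr ?_).continuousWithinAt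
  filter_upwards [isOpen_Ioo.mem_nhds
    (show t ∈ Set.Ioo (t - δ) (t + δ) from ⟨by linarith, by linarith⟩)] with σ hσ
  rw [kgeo_secNum_add hk hΦ (hc σ hσ).2.1, ← ambBisec_param hk hΦ (hc σ hσ).2.1, hvel σ hσ,
    hfr σ hσ _ (hE.2.1 σ (hI hσ)), (hc σ hσ).2.2]
  ring

/-- restriction of the interval of a parallel field. -/
theorem sv_parallel_mono {γ E : ℝ → V} {I I' : Set ℝ} (hE : IsParallelAlong 𝓜 h γ E I)
    (hsub : I' ⊆ I) : IsParallelAlong 𝓜 h γ E I' :=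
  ⟨hE.1.mono hsub, fun t ht => hE.2.1 t (hsub ht),
    fun Φ U hΦ c J hJ hJo hc => hE.2.2 Φ U hΦ c J (hJ.trans hsub) hJo hc⟩

end transplant

/-! ### 3. Minimizing geodesics as frames (leaf `G5-M-C`)

PLANS.  `sv_exists_unit`: `ε` from the definition; unit speed on `[0,l]` by `IsMinGeod.ambQ_eq_one`, elsewhere by `IsGeodesic.ambQ_const`.
`ambB` algebra: through `ambB_param` in `Φ = 𝓜.pΦ x` (`a = dΦ a'`, `CMfd.tangent`), `reForm` is real bilinear, symmetric for Hermitian matrices, `reForm A a (I • a) = 0`, `reForm A (I•a) (I•b) = reForm A a b`.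
`SvFrame.ambQ_const`, `SvFrame.ambB_deriv_const`: `IsParallelAlong.ambB_const` with `IsGeodesic.isParallelAlong_deriv`. -/

section frames

variable {γ : ℝ → V} {x y o : V} {l : ℝ}

theorem sv_exists_unit (hk : IsKahler 𝓜 h) (hγ : IsMinGeod 𝓜 h γ x y l) (hl : 0 < l) :
    ∃ ε > 0, IsGeodesic 𝓜 h γ (Set.Ioo (-ε) (l + ε)) ∧
      ∀ σ ∈ Set.Ioo (-ε) (l + ε), ambQ 𝓜 h (γ σ) (deriv γ σ) = 1 := by
  obtain ⟨ε, hε, hg⟩ := hγ.1
  refine ⟨ε, hε, hg, fun σ hσ => ?_⟩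
  rw [hg.ambQ_const hk hσ (t := 0) ⟨by linarith, by linarith⟩]
  exact hγ.ambQ_eq_one hk hl ⟨le_rfl, hl.le⟩

/-- `coVec` in the chosen parametrisation is additive on tangent vectors. -/
theorem sv_coVec_add (hx : x ∈ 𝓜.carrier) {a b : V} (ha : a ∈ 𝓜.tangent x) (hb : b ∈ 𝓜.tangent x) :
    coVec (𝓜.pΦ x) (𝓜.co x) (a + b) = coVec (𝓜.pΦ x) (𝓜.co x) a + coVec (𝓜.pΦ x) (𝓜.co x) b := by
  have hp := 𝓜.isParam (𝓜.isHol_pΦ hx)
  obtain ⟨a', rfl⟩ := ha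
  obtain ⟨b', rfl⟩ := hb
  rw [← map_add, hp.coVec_fderiv (𝓜.co_mem hx), hp.coVec_fderiv (𝓜.co_mem hx),
    hp.coVec_fderiv (𝓜.co_mem hx)]

theorem sv_coVec_smul (hx : x ∈ 𝓜.carrier) {a : V} (ha : a ∈ 𝓜.tangent x) (r : ℝ) :
    coVec (𝓜.pΦ x) (𝓜.co x) (r • a) = r • coVec (𝓜.pΦ x) (𝓜.co x) a := by
  have hp := 𝓜.isParam (𝓜.isHol_pΦ hx)
  obtain ⟨a', rfl⟩ := ha
  rw [← map_smul, hp.coVec_fderiv (𝓜.co_mem hx), hp.coVec_fderiv (𝓜.co_mem hx)]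

theorem sv_coVec_ambJ (hx : x ∈ 𝓜.carrier) (a : V) :
    coVec (𝓜.pΦ x) (𝓜.co x) (ambJ 𝓜 x a) = Complex.I • coVec (𝓜.pΦ x) (𝓜.co x) a :=
  (𝓜.isParam (𝓜.isHol_pΦ hx)).coVec_fderiv (𝓜.co_mem hx) _

theorem sv_ambB_add_right (hm : IsHForm 𝓜 h) (hx : x ∈ 𝓜.carrier) (T : V) {a b : V}
    (ha : a ∈ 𝓜.tangent x) (hb : b ∈ 𝓜.tangent x) :
    ambB 𝓜 h x T (a + b) = ambB 𝓜 h x T a + ambB 𝓜 h x T b := by
  unfold ambB
  rw [sv_coVec_add hx ha hb]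
  exact (reFormₗ _ _).map_add _ _

theorem sv_ambB_smul_right (hm : IsHForm 𝓜 h) (hx : x ∈ 𝓜.carrier) (T : V) {a : V}
    (ha : a ∈ 𝓜.tangent x) (r : ℝ) : ambB 𝓜 h x T (r • a) = r * ambB 𝓜 h x T a := by
  unfold ambB
  rw [sv_coVec_smul hx ha]
  exact (reFormₗ _ _).map_smul _ _

theorem sv_ambB_comm (hm : IsHForm 𝓜 h) (hx : x ∈ 𝓜.carrier) (a b : V) :
    ambB 𝓜 h x a b = ambB 𝓜 h x b a :=
  reForm_symm (hm.herm (𝓜.isHol_pΦ hx) _ (𝓜.co_mem hx)) _ _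

theorem sv_ambB_ambJ_self (hm : IsHForm 𝓜 h) (hx : x ∈ 𝓜.carrier) {a : V} (ha : a ∈ 𝓜.tangent x) :
    ambB 𝓜 h x a (ambJ 𝓜 x a) = 0 := by
  rw [sv_ambB_comm hm hx]
  unfold ambB
  rw [sv_coVec_ambJ hx]
  exact reForm_I_self (hm.herm (𝓜.isHol_pΦ hx) _ (𝓜.co_mem hx)) _

theorem sv_ambQ_ambJ (hm : IsHForm 𝓜 h) (hx : x ∈ 𝓜.carrier) {a : V} (ha : a ∈ 𝓜.tangent x) :
    ambQ 𝓜 h x (ambJ 𝓜 x a) = ambQ 𝓜 h x a := by
  rw [← ambB_self, ← ambB_self]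
  unfold ambB
  rw [sv_coVec_ambJ hx]
  exact reForm_I_I _ _ _

theorem sv_ambJ_mem_tangent (hx : x ∈ 𝓜.carrier) (a : V) : ambJ 𝓜 x a ∈ 𝓜.tangent x :=
  ⟨_, rfl⟩

variable {E : ℝ → P →L[ℝ] V} {j : P → P} {t₀ t₁ : ℝ}

theorem SvFrame.mem_carrier (F : SvFrame 𝓜 h γ E j t₀ t₁) {σ : ℝ} (hσ : σ ∈ Set.Ioo t₀ t₁) :
    γ σ ∈ 𝓜.carrier := F.geod.2.1 σ hσ

theorem SvFrame.mem_tangent (F : SvFrame 𝓜 h γ E j t₀ t₁) {σ : ℝ} (hσ : σ ∈ Set.Ioo t₀ t₁) (p : P) :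
    E σ p ∈ 𝓜.tangent (γ σ) := (F.par p).2.1 σ hσ

theorem SvFrame.ambQ_const (hk : IsKahler 𝓜 h) (F : SvFrame 𝓜 h γ E j t₀ t₁) {σ σ' : ℝ}
    (hσ : σ ∈ Set.Ioo t₀ t₁) (hσ' : σ' ∈ Set.Ioo t₀ t₁) (p : P) :
    ambQ 𝓜 h (γ σ) (E σ p) = ambQ 𝓜 h (γ σ') (E σ' p) := by
  rw [← ambB_self, ← ambB_self]
  exact (F.par p).ambB_const hk F.geod (F.par p) hσ hσ'

theorem SvFrame.ambB_deriv_const (hk : IsKahler 𝓜 h) (F : SvFrame 𝓜 h γ E j t₀ t₁) {σ σ' : ℝ}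
    (hσ : σ ∈ Set.Ioo t₀ t₁) (hσ' : σ' ∈ Set.Ioo t₀ t₁) (p : P) :
    ambB 𝓜 h (γ σ) (deriv γ σ) (E σ p) = ambB 𝓜 h (γ σ') (deriv γ σ') (E σ' p) :=
  (F.geod.isParallelAlong_deriv hk).ambB_const hk F.geod (F.par p) hσ hσ'

/-- a parallel field is the frame applied to its coordinates. -/
theorem SvFrame.eqOn_of_parallel (hk : IsKahler 𝓜 h) (F : SvFrame 𝓜 h γ E j t₀ t₁) {E' : ℝ → V}
    {s₀ s₁ s : ℝ} (hE' : IsParallelAlong 𝓜 h γ E' (Set.Ioo s₀ s₁)) (hs : s ∈ Set.Ioo t₀ t₁)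
    (hs' : s ∈ Set.Ioo s₀ s₁) {p : P} (hp : E s p = E' s) :
    Set.EqOn (fun σ => E σ p) E' (Set.Ioo t₀ t₁ ∩ Set.Ioo s₀ s₁) := by
  have hs2 : s ∈ Set.Ioo t₀ t₁ ∩ Set.Ioo s₀ s₁ := ⟨hs, hs'⟩
  have g := F.geod.mono (I' := Set.Ioo t₀ t₁ ∩ Set.Ioo s₀ s₁) Set.inter_subset_left
  have p1 := sv_parallel_mono (F.par p) (I' := Set.Ioo t₀ t₁ ∩ Set.Ioo s₀ s₁) Set.inter_subset_left
  have p2 := sv_parallel_mono hE' (I' := Set.Ioo t₀ t₁ ∩ Set.Ioo s₀ s₁) Set.inter_subset_right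
  rw [Set.Ioo_inter_Ioo] at hs2 g p1 p2 ⊢
  exact p1.eqOn hk g p2 hs2 hp

end frames

/-! ### 4. The master statement, parametrisation free (leaf `G5-M-D`)

PLAN: the header of this file.  Details.  `ε`, unit speed: `sv_exists_unit`.  `e := fderiv ℝ Φ₀ z₀`; `he`: `CMfd.tangent_eq`; `hj`: `ambJ_param`.  End data: `svEnd_const` (rewrite `φ 0 • E 0 = 0`),
`svEnd_affine` with `L = id` (rewrite `φ l • E l = e`); `svAcc_const`, `svAcc_affine`.  `chris (h Φ) z (I • p) (I • p) = - chris (h Φ) z p p` (unfold `chris`: each summand gets the factor `I * I`).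
`s` from `sv_exists_global` with `f z = √(l 𝓔 (z - z₀))`; `sv_upperSupp_of_chart`; `levi_congr`, `sv_qf_levi_translate`, `sv_sqrt_jet`.
For a given parallel `E'`: `E' l ∈ T_x M`, so `E' l = e p`; `SvFrame.eqOn_of_parallel` identifies `E' σ = E σ p` on `[0,l]` (`intervalIntegral.integral_congr`).
`ambQ 𝓜 (ddc s) x (e p) = qf (ddc s Φ₀ z₀) p` (`ambQ_param` with `isHForm_ddc`).  `deriv φ = 1/l`, `∫₀ˡ (1/l)² = 1/l`. -/

section master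

theorem sv_ambB_zero_right (hm : IsHForm 𝓜 h) {x : V} (hx : x ∈ 𝓜.carrier) (T : V) :
    ambB 𝓜 h x T 0 = 0 := by
  have h0 : (0 : V) ∈ 𝓜.tangent x := ⟨0, map_zero _⟩
  have := sv_ambB_smul_right hm hx T h0 0
  simpa using this

theorem sv_ambB_neg_right (hm : IsHForm 𝓜 h) {x : V} (hx : x ∈ 𝓜.carrier) (T : V) {a : V}
    (ha : a ∈ 𝓜.tangent x) : ambB 𝓜 h x T (-a) = - ambB 𝓜 h x T a := by
  have := sv_ambB_smul_right hm hx T ha (-1)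
  simpa using this

theorem sv_chris_I_I (H : CE ι → Matrix ι ι ℂ) (z p : CE ι) :
    chris H z (Complex.I • p) (Complex.I • p) = - chris H z p p := by
  rw [chris_smul_left, chris_smul_right, smul_smul, Complex.I_mul_I, neg_one_smul]

/-- the master statement in the chosen parametrisation at the end point. -/
theorem sv_master_chart (hk : IsKahler 𝓜 h) (hconn : IsConnected 𝓜.carrier) {γ : ℝ → V} {o x : V}
    {l : ℝ} (hγ : IsMinGeod 𝓜 h γ o x l) (hl : 0 < l) :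
    ∃ (g : CE ι → ℝ) (N : Set (CE ι)), IsOpen N ∧ (0 : CE ι) ∈ N ∧ ContDiffOn ℝ ∞ g N ∧
      (∀ p ∈ N, hdist 𝓜 h o (𝓜.pΦ x (𝓜.co x + p)) ≤ g p) ∧ g 0 = l ∧
      (∀ p, fderiv ℝ g 0 p = ambB 𝓜 h x (deriv γ l) (fderiv ℝ (𝓜.pΦ x) (𝓜.co x) p)) ∧
      ∀ (p : CE ι) (E' : ℝ → V) (ε' : ℝ), 0 < ε' →
        IsParallelAlong 𝓜 h γ E' (Set.Ioo (-ε') (l + ε')) →
        E' l = fderiv ℝ (𝓜.pΦ x) (𝓜.co x) p →
        (fderiv ℝ (fderiv ℝ g) 0 p p +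
          fderiv ℝ (fderiv ℝ g) 0 (Complex.I • p) (Complex.I • p)) / 4 =
        ambQ 𝓜 h x (E' l) / (2 * l) -
          (ambB 𝓜 h x (deriv γ l) (E' l) ^ 2 +
            ambB 𝓜 h x (deriv γ l) (ambJ 𝓜 x (E' l)) ^ 2) / (4 * l) -
          (1 / 2) * ∫ σ in (0 : ℝ)..l, (σ / l) ^ 2 * ambBisec 𝓜 h (γ σ) (E' σ) (deriv γ σ) := by
  obtain ⟨ε, hε, hg, hu⟩ := sv_exists_unit hk hγ hl
  have hm := hk.toIsHForm
  have hγ0 : γ 0 = o := hγ.2.1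
  have hγl : γ l = x := hγ.2.2.1
  have h0I : (0 : ℝ) ∈ Set.Ioo (-ε) (l + ε) := ⟨by linarith, by linarith⟩
  have hlI : l ∈ Set.Ioo (-ε) (l + ε) := ⟨by linarith, by linarith⟩
  have hx : x ∈ 𝓜.carrier := hγl ▸ hg.2.1 l hlI
  have ho : o ∈ 𝓜.carrier := hγ0 ▸ hg.2.1 0 h0I
  have hΦ := 𝓜.isHol_pΦ hx
  have hz := 𝓜.co_mem hx
  have hxe := 𝓜.pΦ_co hx
  obtain ⟨E, F, hEl⟩ := exists_svFrame hk hg hu hlI (fderiv ℝ (𝓜.pΦ x) (𝓜.co x))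
    (fun p => by rw [hγl]; exact ⟨p, rfl⟩) (fun p => Complex.I • p) (fun p => by
      have := ambJ_param hΦ hz p
      rw [hxe] at this
      rw [hγl, this])
  have hφ : ContDiff ℝ ∞ (fun σ : ℝ => σ / l) := by fun_prop
  have hdφ : ∀ σ : ℝ, deriv (fun σ : ℝ => σ / l) σ = 1 / l := fun σ => by
    simp [deriv_div_const]
  obtain ⟨𝓘, hint, hsum, -, hend⟩ := F.good hk hconn hφ (a := 0) (b := l) (by linarith) hl
    (by linarith)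
  have ea : SvEnd 𝓜 (𝓜.pΦ o) (𝓜.pU o) (fun _ : CE ι => 𝓜.co o) (γ 0)
      ((fun σ : ℝ => σ / l) 0 • E 0) := by
    have := svEnd_const (P := CE ι) (𝓜.isHol_pΦ ho) (𝓜.co_mem ho)
    rw [𝓜.pΦ_co ho] at this
    simpa [hγ0] using this
  have eb : SvEnd 𝓜 (𝓜.pΦ x) (𝓜.pU x) (fun p : CE ι => 𝓜.co x + ContinuousLinearMap.id ℝ (CE ι) p)
      (γ l) ((fun σ : ℝ => σ / l) l • E l) := by
    have := svEnd_affine hΦ hz (ContinuousLinearMap.id ℝ (CE ι)) (fderiv ℝ (𝓜.pΦ x) (𝓜.co x))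
      (fun p => rfl)
    rw [hxe] at this
    simpa [hγl, hEl, div_self hl.ne'] using this
  obtain ⟨𝓔, N, hN, h0N, h𝓔, hle, h𝓔0, hd1, hd2⟩ := hend _ _ _ _ _ _ ea eb
  rw [sub_zero] at h𝓔0
  obtain ⟨⟨N', hN', h0N', hsub, hgs⟩, g0, g1, g2⟩ := sv_sqrt_jet hl hN h0N h𝓔 h𝓔0
  have hd1' : ∀ p, fderiv ℝ 𝓔 0 p =
      2 * ambB 𝓜 h x (deriv γ l) (fderiv ℝ (𝓜.pΦ x) (𝓜.co x) p) := by
    intro p
    rw [hd1, hEl, hγl]
    simp [div_self hl.ne']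
  have hd2' : ∀ p, fderiv ℝ (fderiv ℝ 𝓔) 0 p p = 2 * 𝓘 p + 2 * ambB 𝓜 h x (deriv γ l)
      (fderiv ℝ (𝓜.pΦ x) (𝓜.co x) (chris (h (𝓜.pΦ x)) (𝓜.co x) p p)) := by
    intro p
    rw [hd2, svAcc_const, svAcc_affine, hγ0, sv_ambB_zero_right hm ho, hγl]
    simp
  refine ⟨fun p => Real.sqrt (l * 𝓔 p), N', hN', h0N', hgs, fun p hp => ?_, g0, fun p => ?_, ?_⟩
  · have h1 := (hle p (hsub hp)).2
    rw [sub_zero, 𝓜.pΦ_co ho] at h1
    exact Real.le_sqrt_of_sq_le h1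
  · rw [g1, hd1']
    ring
  · intro p E' ε' hε' hE' hE'l
    have hJ : ambJ 𝓜 x (E' l) = fderiv ℝ (𝓜.pΦ x) (𝓜.co x) (Complex.I • p) := by
      have := ambJ_param hΦ hz p
      rw [hxe] at this
      rw [hE'l, this]
    have hQ : ambQ 𝓜 h (γ 0) (E 0 p) = ambQ 𝓜 h x (E' l) := by
      rw [F.ambQ_const hk h0I hlI p, hEl, hγl, hE'l]
    have hI1 : ∫ σ in (0 : ℝ)..l, deriv (fun σ : ℝ => σ / l) σ ^ 2 = 1 / l := by
      simp only [hdφ, intervalIntegral.integral_const, sub_zero, smul_eq_mul]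
      field_simp
    have hI2 : ∫ σ in (0 : ℝ)..l, (σ / l) ^ 2 * ambBisec 𝓜 h (γ σ) (E σ p) (deriv γ σ) =
        ∫ σ in (0 : ℝ)..l, (σ / l) ^ 2 * ambBisec 𝓜 h (γ σ) (E' σ) (deriv γ σ) := by
      refine intervalIntegral.integral_congr fun σ hσ => ?_
      rw [Set.uIcc_of_le hl.le] at hσ
      have := F.eqOn_of_parallel hk hE' hlI ⟨by linarith, by linarith⟩ (p := p)
        (by rw [hEl, hE'l]) (x := σ)
        ⟨⟨by linarith [hσ.1], by linarith [hσ.2]⟩, ⟨by linarith [hσ.1], by linarith [hσ.2]⟩⟩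
      simp only at this ⊢
      rw [this]
    have hs := hsum p
    rw [hQ, hI1, hI2] at hs
    have hΓ : ambB 𝓜 h x (deriv γ l) (fderiv ℝ (𝓜.pΦ x) (𝓜.co x)
        (chris (h (𝓜.pΦ x)) (𝓜.co x) (Complex.I • p) (Complex.I • p))) =
        - ambB 𝓜 h x (deriv γ l) (fderiv ℝ (𝓜.pΦ x) (𝓜.co x)
          (chris (h (𝓜.pΦ x)) (𝓜.co x) p p)) := by
      rw [sv_chris_I_I, map_neg, sv_ambB_neg_right hm hx _ ⟨_, rfl⟩]
    rw [g2, g2, hd2', hd2', hd1', hd1', hΓ, hJ, hE'l]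
    rw [hE'l] at hs
    beta_reduce at hs
    linear_combination (1 / 4 : ℝ) * hs

theorem sv_master_amb (hk : IsKahler 𝓜 h) (hconn : IsConnected 𝓜.carrier) {γ : ℝ → V} {o x : V}
    {l : ℝ} (hγ : IsMinGeod 𝓜 h γ o x l) (hl : 0 < l) :
    ∃ s : V → ℝ, UpperSupp 𝓜 (fun y => hdist 𝓜 h o y) s x ∧
      (∀ a ∈ 𝓜.tangent x, ambD 𝓜 s x a = ambB 𝓜 h x (deriv γ l) a) ∧
      ∀ (E : ℝ → V) (ε : ℝ), 0 < ε → IsParallelAlong 𝓜 h γ E (Set.Ioo (-ε) (l + ε)) →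
        ambQ 𝓜 (ddc s) x (E l) ≤ ambQ 𝓜 h x (E l) / (2 * l) -
          (ambB 𝓜 h x (deriv γ l) (E l) ^ 2 +
            ambB 𝓜 h x (deriv γ l) (ambJ 𝓜 x (E l)) ^ 2) / (4 * l) -
          (1 / 2) * ∫ σ in (0 : ℝ)..l, (σ / l) ^ 2 * ambBisec 𝓜 h (γ σ) (E σ) (deriv γ σ) := by
  obtain ⟨g, N, hN, h0N, hg, hle, g0, g1, g2⟩ := sv_master_chart hk hconn hγ hl
  have hγl : γ l = x := hγ.2.2.1
  have hx : x ∈ 𝓜.carrier := hγl ▸ hγ.mem_carrier ⟨hl.le, le_rfl⟩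
  have hΦ := 𝓜.isHol_pΦ hx
  have hp := 𝓜.isParam hΦ
  have hz := 𝓜.co_mem hx
  have hxe := 𝓜.pΦ_co hx
  have hsubc : Continuous (fun z : CE ι => z - 𝓜.co x) := by fun_prop
  have hN2 : IsOpen ((fun z : CE ι => z - 𝓜.co x) ⁻¹' N) := hN.preimage hsubc
  have hz2 : 𝓜.co x ∈ (fun z : CE ι => z - 𝓜.co x) ⁻¹' N := by
    show 𝓜.co x - 𝓜.co x ∈ N
    rwa [sub_self]
  have hf : ContDiffOn ℝ ∞ (fun z => g (z - 𝓜.co x)) ((fun z : CE ι => z - 𝓜.co x) ⁻¹' N) :=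
    hg.comp (contDiff_id.sub contDiff_const).contDiffOn fun z hz => hz
  obtain ⟨s, hs, hsf⟩ := sv_exists_global hΦ hz hN2 hz2 hf
  have hsf' : (s ∘ 𝓜.pΦ x) =ᶠ[𝓝 (𝓜.co x)] fun z => g (z - 𝓜.co x) := hsf
  have hsupp : UpperSupp 𝓜 (fun y => hdist 𝓜 h o y) s (𝓜.pΦ x (𝓜.co x)) := by
    refine sv_upperSupp_of_chart hΦ hz hs ?_ ?_
    · filter_upwards [hsf, hN2.mem_nhds hz2] with z h1 h2
      rw [h1]
      have := hle _ h2
      simpa using this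
    · rw [hsf.self_of_nhds, sub_self, g0, hxe]
      exact hγ.2.2.2.1
  rw [hxe] at hsupp
  refine ⟨s, hsupp, ?_, ?_⟩
  · rintro _ ⟨p, rfl⟩
    unfold ambD
    rw [hp.coVec_fderiv hz, hsf'.fderiv_eq, (sv_qf_levi_translate hN h0N hg (𝓜.co x) p).2, g1]
  · intro E ε hε hE
    have hEl : E l ∈ 𝓜.tangent x := hγl ▸ hE.2.1 l ⟨by linarith, by linarith⟩
    obtain ⟨p, hp'⟩ := hEl
    have h1 : ambQ 𝓜 (ddc s) x (E l) = qf (levi (fun z => g (z - 𝓜.co x)) (𝓜.co x)) p := by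
      unfold ambQ ddc
      rw [← hp', hp.coVec_fderiv hz, levi_congr hsf']
    rw [h1, (sv_qf_levi_translate hN h0N hg (𝓜.co x) p).1, g2 p E ε hε hE hp'.symm]

end master

end Claimed.Agent.R316
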